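import Crest.Agent.R239.Defs

/-!
# Maximal inequalities for prefix sums through quartic forms (Móricz-type bisection)
-/

set_option autoImplicit false

namespace Crest.Agent.R239

open Finset

variable {n : ℕ}

theorem chain (a : Fin n → ℝ) : ∀ (len s t : ℕ), t - s ≤ len → s ≤ t → ∀ M : ℝ, sm a s t ≤ M →
    ∃ L : QF n, 0 ≤ L ∧ (∀ g k, s ≤ k → k ≤ t → (seg a s k ⬝ᵥ g) ^ 4 ≤ qf g L) ∧
      mass L ≤ 2048 * M ^ 2 ∧ ∀ j, cost j L ≤ 2048 * M * seg a s t j ^ 2 := by
  intro len
  induction len with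
  | zero =>
    intro s t hlen hst M hM
    have hM0 : 0 ≤ M := (sm_nonneg a s t).trans hM
    refine ⟨0, le_rfl, ?_, ?_, ?_⟩
    · intro g k h1 h2
      have : k = s := by omega
      subst this
      simp [seg_self]
    · simp only [map_zero]; positivity
    · intro j; simp only [map_zero]; positivity
  | succ len ih =>
    intro s t hlen hst M hM
    have hM0 : 0 ≤ M := (sm_nonneg a s t).trans hM
    by_cases hst' : t = s
    · exact ih s t (by omega) hst M hM
    have hlt : s < t := by omega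
    classical
    -- the largest `m < t` with `s ≤ m` and `sm a s m ≤ M / 2`
    set m := Nat.findGreatest (fun k => s ≤ k ∧ sm a s k ≤ M / 2) (t - 1) with hm
    have hP : s ≤ s ∧ sm a s s ≤ M / 2 := ⟨le_rfl, by rw [sm_self]; positivity⟩
    have hspec : s ≤ m ∧ sm a s m ≤ M / 2 :=
      Nat.findGreatest_spec (P := fun k => s ≤ k ∧ sm a s k ≤ M / 2) (m := s) (by omega) hP
    have hmle : m ≤ t - 1 := Nat.findGreatest_le _
    have hright : sm a (m + 1) t ≤ M / 2 := by
      by_cases hmt : m + 1 = t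
      · rw [hmt, sm_self]; positivity
      · have hnot : ¬ (s ≤ m + 1 ∧ sm a s (m + 1) ≤ M / 2) :=
          Nat.findGreatest_is_greatest (P := fun k => s ≤ k ∧ sm a s k ≤ M / 2)
            (n := t - 1) (by omega) (by omega)
        have h1 : M / 2 < sm a s (m + 1) := by
          by_contra hcon
          exact hnot ⟨by omega, not_lt.mp hcon⟩
        have h2 := sm_add a (s := s) (t := m + 1) (r := t) (by omega) (by omega)
        linarith
    obtain ⟨L1, h10, h11, h12, h13⟩ := ih s m (by omega) hspec.1 (M / 2) hspec.2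
    obtain ⟨L2, h20, h21, h22, h23⟩ := ih (m + 1) t (by omega) (by omega) (M / 2) hright
    have hmid : sm a s (m + 1) ≤ M := (sm_mono a (by omega) (by omega)).trans hM
    have hmid0 : 0 ≤ sm a s (m + 1) := sm_nonneg _ _ _
    refine ⟨L1 + Finsupp.single (seg a s (m + 1)) 512 + (3 / 2 : ℝ) • L2, ?_, ?_, ?_, ?_⟩
    · exact add_nonneg (add_nonneg h10 (qf_single_nonneg _ (by norm_num)))
        (qf_smul_nonneg h20 (by norm_num))
    · intro g k h1 h2
      simp only [map_add, map_smul, qf_single, smul_eq_mul]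
      have q1 := qf_nonneg g h10
      have q2 := qf_nonneg g h20
      by_cases hk : k ≤ m
      · have := h11 g k h1 hk
        have h4 : 0 ≤ (seg a s (m + 1) ⬝ᵥ g) ^ 4 := by positivity
        linarith
      · have e1 := seg_add a (s := s) (t := m + 1) (r := k) (by omega) (by omega)
        rw [e1, add_dotProduct]
        have := h21 g k (by omega) h2
        have h5 := add_pow_four_le (seg a s (m + 1) ⬝ᵥ g) (seg a (m + 1) k ⬝ᵥ g)
        linarith
    · simp only [map_add, map_smul, mass_single, smul_eq_mul]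
      have : (seg a s (m + 1) ⬝ᵥ seg a s (m + 1)) ^ 2 ≤ M ^ 2 :=
        pow_le_pow_left₀ hmid0 hmid 2
      nlinarith [sq_nonneg M]
    · intro j
      simp only [map_add, map_smul, cost_single, smul_eq_mul]
      have e1 := seg_sq_add a (s := s) (t := m + 1) (r := t) (by omega) (by omega) j
      have e2 := seg_sq_add a (s := s) (t := m) (r := m + 1) (by omega) (by omega) j
      have h3 : (seg a s (m + 1) ⬝ᵥ seg a s (m + 1)) * seg a s (m + 1) j ^ 2
          ≤ M * seg a s (m + 1) j ^ 2 := mul_le_mul_of_nonneg_right hmid (sq_nonneg _)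
      have h4 := h13 j
      have h5 := h23 j
      have p1 : 0 ≤ M * seg a s m j ^ 2 := by positivity
      have p2 : 0 ≤ M * seg a m (m + 1) j ^ 2 := by positivity
      have p3 : 0 ≤ M * seg a (m + 1) t j ^ 2 := by positivity
      rw [e1]
      rw [e2] at h3 ⊢
      nlinarith

theorem row_forms (a : Fin n → ℝ) (μ : ℝ) (hμ : 0 < μ) :
    ∃ G : ℕ → QF n, (∀ q, 0 ≤ G q) ∧
      (∀ q g k, k ≤ n → sm a 0 k ≤ μ * 2 ^ q → (seg a 0 k ⬝ᵥ g) ^ 4 ≤ qf g (G q)) ∧
      (∀ q, mass (G q) ≤ 2 ^ 21 * (μ * 2 ^ q) ^ 2) ∧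
      ∀ Q j, ∑ q ∈ range Q, cost j (G q) / (μ * 2 ^ q) ≤ 2 ^ 22 * a j ^ 2 := by
  classical
  let κ : ℕ → ℕ := fun q => Nat.findGreatest (fun k => sm a 0 k ≤ μ * 2 ^ q) n
  have hκspec : ∀ q, sm a 0 (κ q) ≤ μ * 2 ^ q := fun q =>
    Nat.findGreatest_spec (P := fun k => sm a 0 k ≤ μ * 2 ^ q) (m := 0) (Nat.zero_le _)
      (by rw [sm_self]; positivity)
  have hκle : ∀ q, κ q ≤ n := fun q => Nat.findGreatest_le _
  have hκge : ∀ q k, k ≤ n → sm a 0 k ≤ μ * 2 ^ q → k ≤ κ q := fun q k hk h =>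
    Nat.le_findGreatest (P := fun k => sm a 0 k ≤ μ * 2 ^ q) hk h
  have hκmono : ∀ q, κ q ≤ κ (q + 1) := fun q => by
    refine hκge (q + 1) _ (hκle q) ((hκspec q).trans ?_)
    rw [pow_succ]
    nlinarith [mul_pos hμ (pow_pos (two_pos (α := ℝ)) q)]
  obtain ⟨C0, c00, c01, c02, c03⟩ := chain a _ 0 (κ 0) le_rfl (Nat.zero_le _) _ (hκspec 0)
  have hch : ∀ q, ∃ L : QF n, 0 ≤ L ∧
      (∀ g k, κ q ≤ k → k ≤ κ (q + 1) → (seg a (κ q) k ⬝ᵥ g) ^ 4 ≤ qf g L) ∧
      mass L ≤ 2048 * (μ * 2 ^ (q + 1)) ^ 2 ∧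
      ∀ j, cost j L ≤ 2048 * (μ * 2 ^ (q + 1)) * seg a (κ q) (κ (q + 1)) j ^ 2 := fun q => by
    refine chain a _ (κ q) (κ (q + 1)) le_rfl (hκmono q) _ ?_
    have h1 := sm_add a (Nat.zero_le (κ q)) (hκmono q)
    have h2 := sm_nonneg a 0 (κ q)
    have h3 := hκspec (q + 1)
    linarith
  choose Ch ch0 ch1 ch2 ch3 using hch
  let G : ℕ → QF n := fun q => Nat.rec C0 (fun q' L => (3 / 2 : ℝ) • L + (512 : ℝ) • Ch q') q
  have hG0 : G 0 = C0 := rfl
  have hGs : ∀ q, G (q + 1) = (3 / 2 : ℝ) • G q + (512 : ℝ) • Ch q := fun q => rfl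
  have hnn : ∀ q, 0 ≤ G q := by
    intro q
    induction q with
    | zero => exact c00
    | succ q ih =>
      rw [hGs]
      exact add_nonneg (qf_smul_nonneg ih (by norm_num)) (qf_smul_nonneg (ch0 q) (by norm_num))
  have hbd : ∀ q g k, k ≤ κ q → (seg a 0 k ⬝ᵥ g) ^ 4 ≤ qf g (G q) := by
    intro q
    induction q with
    | zero => intro g k hk; exact c01 g k (Nat.zero_le _) hk
    | succ q ih =>
      intro g k hk
      rw [hGs]
      simp only [map_add, map_smul, smul_eq_mul]
      have q1 := qf_nonneg g (hnn q)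
      have q2 := qf_nonneg g (ch0 q)
      by_cases hk' : k ≤ κ q
      · have := ih g k hk'
        linarith
      · have e1 := seg_add a (s := 0) (t := κ q) (r := k) (Nat.zero_le _) (by omega)
        rw [e1, add_dotProduct, add_comm]
        have h5 := add_pow_four_le (seg a (κ q) k ⬝ᵥ g) (seg a 0 (κ q) ⬝ᵥ g)
        have h6 := ih g (κ q) le_rfl
        have h7 := ch1 q g k (by omega) hk
        linarith
  refine ⟨G, hnn, fun q g k hk h => hbd q g k (hκge q k hk h), ?_, ?_⟩
  · intro q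
    induction q with
    | zero =>
      rw [hG0]
      refine c02.trans ?_
      nlinarith [sq_nonneg (μ * 2 ^ 0)]
    | succ q ih =>
      rw [hGs]
      simp only [map_add, map_smul, smul_eq_mul]
      have h1 := ch2 q
      have e : (μ * 2 ^ (q + 1)) ^ 2 = 4 * (μ * 2 ^ q) ^ 2 := by ring
      rw [e] at h1 ⊢
      nlinarith [sq_nonneg (μ * 2 ^ q)]
  · intro Q j
    have key : ∀ Q, ∑ q ∈ range (Q + 1), cost j (G q) / (μ * 2 ^ q)
        + 3 * (cost j (G Q) / (μ * 2 ^ Q)) ≤ 2 ^ 22 * seg a 0 (κ Q) j ^ 2 := by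
      intro Q
      induction Q with
      | zero =>
        simp only [zero_add, range_one, sum_singleton, hG0]
        have h1 : cost j C0 / (μ * 2 ^ 0) ≤ 2048 * seg a 0 (κ 0) j ^ 2 := by
          rw [div_le_iff₀ (by positivity)]
          have := c03 j
          linarith
        nlinarith [sq_nonneg (seg a 0 (κ 0) j)]
      | succ Q ih =>
        rw [sum_range_succ]
        have hpos : 0 < μ * 2 ^ Q := by positivity
        have h1 : cost j (G (Q + 1)) / (μ * 2 ^ (Q + 1)) ≤ 3 / 4 * (cost j (G Q) / (μ * 2 ^ Q))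
            + 2 ^ 20 * seg a (κ Q) (κ (Q + 1)) j ^ 2 := by
          rw [div_le_iff₀ (by positivity), hGs]
          simp only [map_add, map_smul, smul_eq_mul]
          have h2 := ch3 Q j
          have e : 3 / 4 * (cost j (G Q) / (μ * 2 ^ Q)) * (μ * 2 ^ (Q + 1))
              = 3 / 2 * cost j (G Q) := by
            field_simp
            ring
          rw [add_mul, e]
          linarith
        have e2 := seg_sq_add a (Nat.zero_le (κ Q)) (hκmono Q) j
        rw [e2]
        linarith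
    cases Q with
    | zero => simp only [range_zero, sum_empty]; positivity
    | succ Q =>
      have h1 := key Q
      have h2 : 0 ≤ cost j (G Q) / (μ * 2 ^ Q) :=
        div_nonneg (cost_nonneg j (hnn Q)) (by positivity)
      have h3 := seg_sq_le a 0 (κ Q) j
      nlinarith

end Crest.Agent.R239
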