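import Mathlib

/-!
# Nested small piercing sets for heavy intervals of a decreasing family of weights
-/

set_option autoImplicit false

namespace Crest.Agent.R239

open Finset

/-- `T` meets every interval inside `[0, k)` of `w`-weight at least `1/4`. -/
def Pierces (w : ℕ → ℝ) (k : ℕ) (T : Finset ℕ) : Prop :=
  ∀ y z, z ≤ k → 1 / 4 ≤ ∑ j ∈ Ico y z, w j → ∃ x ∈ T, x ∈ Ico y z

theorem exists_small_pierce (w : ℕ → ℝ) (hw : ∀ j, 0 ≤ w j) (k : ℕ) (d : ℝ)
    (hd : ∑ j ∈ range k, w j ≤ d) (T : Finset ℕ) (hT : Pierces w k T) :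
    ∃ T' ⊆ T, Pierces w k T' ∧ (T'.card : ℝ) ≤ 8 * d := by
  classical
  obtain ⟨T', hT', hmin⟩ := Finset.exists_min_image (T.powerset.filter (Pierces w k))
    Finset.card ⟨T, by simp [hT]⟩
  simp only [mem_filter, mem_powerset] at hT' hmin
  refine ⟨T', hT'.1, hT'.2, ?_⟩
  have hpriv : ∀ x ∈ T', ∃ y z, z ≤ k ∧ 1 / 4 ≤ ∑ j ∈ Ico y z, w j ∧ x ∈ Ico y z ∧
      ∀ x' ∈ T', x' ∈ Ico y z → x' = x := by
    intro x hx
    have hnot : ¬ Pierces w k (T'.erase x) := by
      intro hP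
      have h1 := hmin (T'.erase x) ⟨(erase_subset _ _).trans hT'.1, hP⟩
      have h2 := card_erase_lt_of_mem hx
      omega
    unfold Pierces at hnot
    push Not at hnot
    obtain ⟨y, z, hz, hs, hno⟩ := hnot
    have hall : ∀ x' ∈ T', x' ∈ Ico y z → x' = x := by
      intro x' hx' hI
      by_contra hne
      exact hno x' (mem_erase.mpr ⟨hne, hx'⟩) hI
    obtain ⟨x0, hx0, hI⟩ := hT'.2 y z hz hs
    refine ⟨y, z, hz, hs, ?_, hall⟩
    rwa [← hall x0 hx0 hI]
  choose! y z hz hs hx hall using hpriv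
  have hcount : ∀ j, ((T'.filter fun x => j ∈ Ico (y x) (z x)).card : ℝ) ≤ 2 := by
    intro j
    have h1 : ((T'.filter fun x => j ∈ Ico (y x) (z x)).filter fun x => x ≤ j).card ≤ 1 := by
      rw [card_le_one]
      intro a ha b hb
      simp only [mem_filter, mem_Ico] at ha hb
      have ha' := mem_Ico.mp (hx a ha.1.1)
      have hb' := mem_Ico.mp (hx b hb.1.1)
      rcases le_total a b with h | h
      · exact (hall a ha.1.1 b hb.1.1 (mem_Ico.mpr ⟨by omega, by omega⟩)).symm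
      · exact hall b hb.1.1 a ha.1.1 (mem_Ico.mpr ⟨by omega, by omega⟩)
    have h2 : ((T'.filter fun x => j ∈ Ico (y x) (z x)).filter fun x => ¬ x ≤ j).card ≤ 1 := by
      rw [card_le_one]
      intro a ha b hb
      simp only [mem_filter, mem_Ico] at ha hb
      have ha' := mem_Ico.mp (hx a ha.1.1)
      have hb' := mem_Ico.mp (hx b hb.1.1)
      rcases le_total a b with h | h
      · exact hall b hb.1.1 a ha.1.1 (mem_Ico.mpr ⟨by omega, by omega⟩)
      · exact (hall a ha.1.1 b hb.1.1 (mem_Ico.mpr ⟨by omega, by omega⟩)).symm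
    have h3 := card_filter_add_card_filter_not
      (s := T'.filter fun x => j ∈ Ico (y x) (z x)) (fun x => x ≤ j)
    have h4 : (T'.filter fun x => j ∈ Ico (y x) (z x)).card ≤ 2 := by omega
    exact_mod_cast h4
  have h1 : (T'.card : ℝ) * (1 / 4) ≤ ∑ x ∈ T', ∑ j ∈ Ico (y x) (z x), w j := by
    rw [← nsmul_eq_mul]
    exact card_nsmul_le_sum _ _ _ hs
  have h2 : ∑ x ∈ T', ∑ j ∈ Ico (y x) (z x), w j
      = ∑ x ∈ T', ∑ j ∈ range k, if j ∈ Ico (y x) (z x) then w j else 0 := by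
    refine sum_congr rfl fun x hxT => ?_
    rw [← sum_filter]
    congr 1
    ext j
    have := hz x hxT
    simp only [mem_Ico, mem_filter, mem_range]
    omega
  have h3 : ∑ x ∈ T', ∑ j ∈ range k, (if j ∈ Ico (y x) (z x) then w j else 0)
      ≤ ∑ j ∈ range k, 2 * w j := by
    rw [sum_comm]
    refine sum_le_sum fun j _ => ?_
    rw [← sum_filter, sum_const, nsmul_eq_mul]
    exact mul_le_mul_of_nonneg_right (hcount j) (hw j)
  rw [← mul_sum] at h3
  linarith

theorem exists_pierce_seq (π : ℕ → ℕ → ℝ) (h0 : ∀ k j, 0 ≤ π k j)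
    (hmono : ∀ k j, j < k → π (k + 1) j ≤ π k j) (d : ℝ)
    (hd : ∀ k, ∑ j ∈ range k, π k j ≤ d) :
    ∃ X : ℕ → Finset ℕ, (∀ k, X k ⊆ range k) ∧ (∀ k, X (k + 1) ⊆ insert k (X k)) ∧
      (∀ k, ((X k).card : ℝ) ≤ 8 * d) ∧ ∀ k, Pierces (π k) k (X k) := by
  classical
  have hd0 : 0 ≤ d := by simpa using hd 0
  have step : ∀ k (T : Finset ℕ), Pierces (π k) k T →
      ∃ T' ⊆ insert k T, Pierces (π (k + 1)) (k + 1) T' ∧ (T'.card : ℝ) ≤ 8 * d := by
    intro k T hT
    refine exists_small_pierce _ (h0 _) _ d (hd _) _ ?_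
    intro y z hz hs
    by_cases hk : k ∈ Ico y z
    · exact ⟨k, mem_insert_self _ _, hk⟩
    · by_cases hzk : z ≤ k
      · have : 1 / 4 ≤ ∑ j ∈ Ico y z, π k j :=
          hs.trans (sum_le_sum fun j hj => hmono k j (by have := mem_Ico.mp hj; omega))
        obtain ⟨x, hx, hI⟩ := hT y z hzk this
        exact ⟨x, mem_insert_of_mem hx, hI⟩
      · exfalso
        have : Ico y z = ∅ := by
          rw [mem_Ico] at hk
          exact Ico_eq_empty (by omega)
        rw [this, sum_empty] at hs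
        norm_num at hs
  choose! F hF1 hF2 hF3 using step
  let X : ℕ → Finset ℕ := fun k => Nat.rec ∅ (fun k' T => F k' T) k
  have hXs : ∀ k, X (k + 1) = F k (X k) := fun k => rfl
  have hP : ∀ k, Pierces (π k) k (X k) := by
    intro k
    induction k with
    | zero =>
      intro y z hz hs
      have : Ico y z = ∅ := Ico_eq_empty (by omega)
      rw [this, sum_empty] at hs
      norm_num at hs
    | succ k ih => rw [hXs]; exact hF2 k _ ih
  have hsub : ∀ k, X (k + 1) ⊆ insert k (X k) := fun k => by rw [hXs]; exact hF1 k _ (hP k)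
  refine ⟨X, ?_, hsub, ?_, hP⟩
  · intro k
    induction k with
    | zero => exact empty_subset _
    | succ k ih =>
      refine (hsub k).trans ?_
      rw [range_add_one]
      exact insert_subset_insert _ ih
  · intro k
    cases k with
    | zero =>
      have : X 0 = ∅ := rfl
      rw [this]; simp only [card_empty, Nat.cast_zero]; positivity
    | succ k => rw [hXs]; exact hF3 k _ (hP k)

theorem mem_of_nested {X : ℕ → Finset ℕ} (hX : ∀ k, X (k + 1) ⊆ insert k (X k)) {x k l : ℕ}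
    (hxk : x < k) (hkl : k ≤ l) (hx : x ∈ X l) : x ∈ X k := by
  induction l, hkl using Nat.le_induction with
  | base => exact hx
  | succ l hl ih =>
    rcases mem_insert.mp (hX l hx) with h | h
    · omega
    · exact ih h

theorem geom_sum_le (T : Finset ℕ) (μ B : ℝ) (hμ : 0 < μ) (hB : 0 ≤ B)
    (h : ∀ q ∈ T, μ * 2 ^ q ≤ B) : ∑ q ∈ T, μ * 2 ^ q ≤ 2 * B := by
  rcases T.eq_empty_or_nonempty with rfl | hne
  · simp only [sum_empty]; positivity
  · have hsub : T ⊆ range (T.max' hne + 1) := fun q hq =>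
      mem_range.mpr (Nat.lt_succ_of_le (T.le_max' q hq))
    have h1 : ∑ q ∈ T, μ * 2 ^ q ≤ ∑ q ∈ range (T.max' hne + 1), μ * 2 ^ q :=
      sum_le_sum_of_subset_of_nonneg hsub fun _ _ _ => by positivity
    have h2 : ∀ N : ℕ, ∑ q ∈ range (N + 1), μ * (2 : ℝ) ^ q ≤ 2 * (μ * 2 ^ N) - μ := by
      intro N
      induction N with
      | zero => simp; linarith
      | succ N ih => rw [sum_range_succ, pow_succ]; linarith
    have h3 := h _ (T.max'_mem hne)
    linarith [h2 (T.max' hne)]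

theorem sum_inv_two_pow_le (H : ℕ) : ∑ h ∈ range H, ((2 : ℝ) ^ h)⁻¹ ≤ 2 := by
  have : ∀ H : ℕ, ∑ h ∈ range H, ((2 : ℝ) ^ h)⁻¹ ≤ 2 - 2 * ((2 : ℝ) ^ H)⁻¹ := by
    intro H
    induction H with
    | zero => simp
    | succ H ih =>
      rw [sum_range_succ, pow_succ, mul_inv]
      linarith
  have h2 : 0 ≤ ((2 : ℝ) ^ H)⁻¹ := by positivity
  linarith [this H]

end Crest.Agent.R239
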