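import Crest.Agent.R239.Chain
import Crest.Agent.R239.Pierce

/-!
# The combinatorial covering: quartic constraints controlling all alive prefix sums
-/

set_option autoImplicit false

namespace Crest.Agent.R239

open Finset

variable {n : ℕ}

theorem exists_le_mul_two_pow (μ : ℝ) (hμ : 0 < μ) (x : ℝ) : ∃ q : ℕ, x ≤ μ * 2 ^ q := by
  obtain ⟨q, hq⟩ := pow_unbounded_of_one_lt (x / μ) (one_lt_two (α := ℝ))
  refine ⟨q, ?_⟩
  rw [div_lt_iff₀ hμ] at hq
  linarith

/-- The dyadic stage of `x` relative to the base scale `μ`. -/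
noncomputable def stage (μ : ℝ) (hμ : 0 < μ) (x : ℝ) : ℕ := by
  classical exact Nat.find (exists_le_mul_two_pow μ hμ x)

theorem le_stage (μ : ℝ) (hμ : 0 < μ) (x : ℝ) : x ≤ μ * 2 ^ stage μ hμ x := by
  classical exact Nat.find_spec (exists_le_mul_two_pow μ hμ x)

theorem stage_le (μ : ℝ) (hμ : 0 < μ) (x : ℝ) {q : ℕ} (h : x ≤ μ * 2 ^ q) :
    stage μ hμ x ≤ q := by
  classical exact Nat.find_min' (exists_le_mul_two_pow μ hμ x) h

theorem stage_lt (μ : ℝ) (hμ : 0 < μ) (x : ℝ) (h : stage μ hμ x ≠ 0) :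
    μ * 2 ^ stage μ hμ x < 2 * x := by
  obtain ⟨q, hq⟩ := Nat.exists_eq_succ_of_ne_zero h
  have h1 : ¬ x ≤ μ * 2 ^ q := fun h' => by
    have := stage_le μ hμ x h'
    omega
  rw [hq, pow_succ]
  linarith [not_le.mp h1]

theorem stage_bound (μ : ℝ) (hμ : 0 < μ) (x : ℝ) (hx : 0 ≤ x) :
    μ * 2 ^ stage μ hμ x ≤ μ + 2 * x := by
  by_cases h : stage μ hμ x = 0
  · rw [h]; linarith
  · linarith [stage_lt μ hμ x h]

theorem sm_le_of_dom (a : Fin n → ℝ) (w : ℕ → ℝ) (y z : ℕ) (hz : z ≤ n) (c : ℝ)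
    (h : ∀ j : Fin n, (j : ℕ) < z → a j ^ 2 ≤ w j * c) :
    sm a y z ≤ (∑ j ∈ Ico y z, w j) * c := by
  rw [sm_eq]
  have h1 : ∑ j : Fin n, seg a y z j ^ 2
      ≤ ∑ j : Fin n, (fun i : ℕ => if y ≤ i ∧ i < z then w i * c else 0) j := by
    refine sum_le_sum fun j _ => ?_
    simp only [seg]
    split_ifs with hj
    · exact h j hj.2
    · simp
  refine h1.trans (le_of_eq ?_)
  rw [Fin.sum_univ_eq_sum_range (fun i : ℕ => if y ≤ i ∧ i < z then w i * c else 0) n,
    ← sum_filter, sum_mul]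
  congr 1
  ext j
  simp only [mem_filter, mem_range, mem_Ico]
  omega

theorem alive_of_le {P : ℕ → Prop} (h : ∀ k, P (k + 1) → P k) {k l : ℕ} (hkl : k ≤ l)
    (hl : P l) : P k := by
  induction l, hkl using Nat.le_induction with
  | base => exact hl
  | succ l _ ih => exact ih (h l hl)

theorem anchor (a : Fin n → ℝ) (alive : ℕ → Prop) (halive : ∀ k, alive (k + 1) → alive k)
    (π : ℕ → ℕ → ℝ)
    (hdom : ∀ k, alive k → k ≤ n → ∀ j : Fin n, (j : ℕ) < k → a j ^ 2 ≤ π k j * sm a 0 k)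
    (h0 : ∀ k j, 0 ≤ π k j)
    (X : ℕ → Finset ℕ) (hX : ∀ k, X (k + 1) ⊆ insert k (X k)) (hP : ∀ k, Pierces (π k) k (X k))
    (μ : ℝ) (hμ : 0 < μ) (q : ℕ) (hq : q ≠ 0)
    (hex : ∃ k, k ≤ n ∧ alive k ∧ stage μ hμ (sm a 0 k) = q) :
    ∃ x l : ℕ, x < n ∧
      (∀ k, k ≤ n → alive k → stage μ hμ (sm a 0 k) = q → k ≤ l ∧ x ∈ X k) ∧
      ∀ k, x < k → k ≤ l → alive k ∧ μ * 2 ^ q ≤ 4 * sm a 0 k := by
  classical
  let P : ℕ → Prop := fun k => k ≤ n ∧ alive k ∧ stage μ hμ (sm a 0 k) = q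
  have hM : 0 < μ * 2 ^ q := by positivity
  set f := Nat.find hex with hf
  have hfP : P f := Nat.find_spec hex
  set l := Nat.findGreatest P n with hl
  have hlP : P l := Nat.findGreatest_spec (P := P) hfP.1 hfP
  have hge : ∀ k, P k → f ≤ k ∧ k ≤ l := fun k hk =>
    ⟨Nat.find_min' hex hk, Nat.le_findGreatest (P := P) hk.1 hk⟩
  have hSf : μ * 2 ^ q < 2 * sm a 0 f := by
    have := stage_lt μ hμ (sm a 0 f) (by rw [hfP.2.2]; exact hq)
    rwa [hfP.2.2] at this
  have hf0 : f ≠ 0 := by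
    intro h
    rw [h, sm_self] at hSf
    linarith
  have hexy : ∃ j, μ * 2 ^ q / 4 < sm a 0 (j + 1) := by
    refine ⟨f - 1, ?_⟩
    rw [Nat.sub_add_cancel (Nat.one_le_iff_ne_zero.mpr hf0)]
    linarith
  set y := Nat.find hexy with hy
  have hy1 : μ * 2 ^ q / 4 < sm a 0 (y + 1) := Nat.find_spec hexy
  have hyf : y ≤ f - 1 := Nat.find_min' hexy (by
    rw [Nat.sub_add_cancel (Nat.one_le_iff_ne_zero.mpr hf0)]
    linarith)
  have hy2 : sm a 0 y ≤ μ * 2 ^ q / 4 := by
    rcases Nat.eq_zero_or_pos y with h | h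
    · rw [h, sm_self]; positivity
    · have := Nat.find_min hexy (m := y - 1) (by omega)
      rw [Nat.sub_add_cancel h] at this
      exact not_lt.mp this
  have hfl := (hge f hfP).2
  have hadd := sm_add a (Nat.zero_le y) (show y ≤ f by omega)
  have hSl : sm a 0 l ≤ μ * 2 ^ q := by
    have := le_stage μ hμ (sm a 0 l)
    rwa [hlP.2.2] at this
  have hdm := sm_le_of_dom a (π l) y f hfP.1 (sm a 0 l)
    (fun j hj => hdom l hlP.2.1 hlP.1 j (by omega))
  have hsum0 : 0 ≤ ∑ j ∈ Ico y f, π l j := sum_nonneg fun j _ => h0 l j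
  have hheavy : 1 / 4 ≤ ∑ j ∈ Ico y f, π l j := by
    by_contra hcon
    push Not at hcon
    have := mul_le_mul_of_nonneg_left hSl hsum0
    nlinarith
  obtain ⟨x, hx, hI⟩ := hP l y f hfl hheavy
  rw [mem_Ico] at hI
  refine ⟨x, l, by have := hfP.1; omega, ?_, ?_⟩
  · intro k hk1 hk2 hk3
    have := hge k ⟨hk1, hk2, hk3⟩
    exact ⟨this.2, mem_of_nested hX (by omega) this.2 hx⟩
  · intro k hk1 hk2
    refine ⟨alive_of_le halive hk2 hlP.2.1, ?_⟩
    have := sm_mono a (Nat.zero_le (y + 1)) (show y + 1 ≤ k by omega)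
    linarith

theorem comb {R : Type} [Fintype R] (a : R → Fin n → ℝ) (alive : R → ℕ → Prop)
    [∀ m k, Decidable (alive m k)]
    (halive : ∀ m k, alive m (k + 1) → alive m k)
    (hcol : ∀ j, ∑ m, a m j ^ 2 ≤ 1)
    (D : ℝ) (hD : ∀ k ≤ n, ∑ m with alive m k, sm (a m) 0 k ≤ D)
    (π : ℕ → ℕ → ℝ) (h0 : ∀ k j, 0 ≤ π k j) (hmono : ∀ k j, j < k → π (k + 1) j ≤ π k j)
    (d : ℝ) (hd : ∀ k, ∑ j ∈ range k, π k j ≤ d)
    (hdom : ∀ m k, alive m k → k ≤ n → ∀ j : Fin n, (j : ℕ) < k →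
      a m j ^ 2 ≤ π k j * sm (a m) 0 k) :
    ∃ (C : Type) (_ : Fintype C) (L : C → QF n), (∀ c, 0 ≤ L c) ∧ (∀ c, mass (L c) ≤ 2 ^ 21) ∧
      (∀ j, ∑ c, cost j (L c) ≤ 2 ^ 24) ∧
      ∀ (g : Fin n → ℝ) (τ : ℝ), 0 ≤ τ → (∀ c, qf g (L c) ≤ τ) → ∀ k ≤ n,
        ∑ m with alive m k, (seg (a m) 0 k ⬝ᵥ g) ^ 2
          ≤ 1 + 2 * D + τ * (1 + 8 * d + 16 * D) := by
  classical
  obtain ⟨X, hX1, hX2, hX3, hX4⟩ := exists_pierce_seq π h0 hmono d hd
  set μ : ℝ := 1 / ((Fintype.card R : ℝ) + 1) with hμdef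
  have hμ : 0 < μ := by positivity
  have hcardμ : (Fintype.card R : ℝ) * μ ≤ 1 := by
    rw [hμdef, mul_one_div, div_le_one (by positivity)]
    linarith
  choose G hG0 hG1 hG2 hG3 using fun m => row_forms (a m) μ hμ
  let st : R → ℕ → ℕ := fun m k => stage μ hμ (sm (a m) 0 k)
  let M : ℕ → ℝ := fun q => μ * 2 ^ q
  have hMpos : ∀ q, 0 < M q := fun q => by positivity
  let Obj : Finset (R × ℕ) :=
    ((univ ×ˢ range (n + 1)).filter fun p : R × ℕ => alive p.1 p.2 ∧ st p.1 p.2 ≠ 0).image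
      fun p => (p.1, st p.1 p.2)
  have hanch : ∀ α ∈ Obj, ∃ x l : ℕ, x < n ∧
      (∀ k, k ≤ n → alive α.1 k → st α.1 k = α.2 → k ≤ l ∧ x ∈ X k) ∧
      ∀ k, x < k → k ≤ l → alive α.1 k ∧ M α.2 ≤ 4 * sm (a α.1) 0 k := by
    intro α hα
    obtain ⟨p, hp, rfl⟩ := mem_image.mp hα
    simp only [mem_filter, mem_product, mem_univ, mem_range, true_and] at hp
    exact anchor (a p.1) (alive p.1) (halive p.1) π (hdom p.1) h0 X hX2 hX4 μ hμ _ hp.2.2
      ⟨p.2, by omega, hp.2.1, rfl⟩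
  choose! x l hxn hP1 hP2 using hanch
  -- remaining mass of the cluster at `z` from time `k` on
  let Rm : ℕ → ℕ → ℝ := fun z k => ∑ β ∈ Obj with (x β = z ∧ k ≤ l β), M β.2
  have hRm0 : ∀ z k, 0 ≤ Rm z k := fun z k => sum_nonneg fun β _ => (hMpos _).le
  have hRmanti : ∀ z k k', k ≤ k' → Rm z k' ≤ Rm z k := fun z k k' hk =>
    sum_le_sum_of_subset_of_nonneg (fun β hβ => by
      simp only [mem_filter] at hβ ⊢
      exact ⟨hβ.1, hβ.2.1, by omega⟩) fun β _ _ => (hMpos _).le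
  obtain ⟨H0, hH0⟩ := exists_le_mul_two_pow 1 one_pos (∑ β ∈ Obj, M β.2)
  have hRmle : ∀ z k, Rm z k ≤ 1 * 2 ^ H0 := fun z k =>
    (sum_le_sum_of_subset_of_nonneg (filter_subset _ _) fun β _ _ => (hMpos _).le).trans hH0
  let Cl : ℕ → ℕ → Finset (R × ℕ) := fun z h =>
    Obj.filter fun α => x α = z ∧ Rm z (l α) ≤ 2 ^ h
  let GG : R × ℕ → QF n := fun α => (M α.2)⁻¹ • G α.1 α.2
  have hGG0 : ∀ α, 0 ≤ GG α := fun α => qf_smul_nonneg (hG0 _ _) (inv_nonneg.mpr (hMpos _).le)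
  have hGGmass : ∀ α, mass (GG α) ≤ 2 ^ 21 * M α.2 := fun α => by
    simp only [GG, map_smul, smul_eq_mul]
    rw [inv_mul_le_iff₀ (hMpos _)]
    have := hG2 α.1 α.2
    calc mass (G α.1 α.2) ≤ 2 ^ 21 * (μ * 2 ^ α.2) ^ 2 := this
      _ = M α.2 * (2 ^ 21 * M α.2) := by simp only [M]; ring
  let L : Option (Fin n × Fin (H0 + 1)) → QF n := fun c =>
    match c with
    | none => ∑ m, GG (m, 0)
    | some c => ((2 : ℝ) ^ (c.2 : ℕ))⁻¹ • ∑ α ∈ Cl c.1 c.2, GG α
  have hClmass : ∀ z h, ∑ α ∈ Cl z h, M α.2 ≤ 2 ^ h := by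
    intro z h
    rcases (Cl z h).eq_empty_or_nonempty with he | hne
    · rw [he, sum_empty]; positivity
    · obtain ⟨α0, hα0, hmin⟩ := exists_min_image (Cl z h) l hne
      have h1 := (mem_filter.mp hα0).2.2
      refine le_trans ?_ h1
      refine sum_le_sum_of_subset_of_nonneg (fun β hβ => ?_) fun β _ _ => (hMpos _).le
      have := mem_filter.mp hβ
      exact mem_filter.mpr ⟨this.1, this.2.1, hmin β hβ⟩
  refine ⟨Option (Fin n × Fin (H0 + 1)), inferInstance, L, ?_, ?_, ?_, ?_⟩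
  · rintro (_ | c)
    · exact sum_nonneg fun m _ => hGG0 _
    · exact qf_smul_nonneg (sum_nonneg fun α _ => hGG0 _) (by positivity)
  · rintro (_ | c)
    · simp only [L, map_sum]
      calc ∑ m, mass (GG (m, 0)) ≤ ∑ _m : R, 2 ^ 21 * μ := sum_le_sum fun m _ => by
            simpa [M] using hGGmass (m, 0)
        _ = 2 ^ 21 * ((Fintype.card R : ℝ) * μ) := by
            rw [sum_const, card_univ, nsmul_eq_mul]; ring
        _ ≤ 2 ^ 21 := by linarith
    · simp only [L, map_smul, map_sum, smul_eq_mul]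
      rw [inv_mul_le_iff₀ (by positivity)]
      calc ∑ α ∈ Cl c.1 c.2, mass (GG α) ≤ ∑ α ∈ Cl c.1 c.2, 2 ^ 21 * M α.2 :=
            sum_le_sum fun α _ => hGGmass α
        _ = 2 ^ 21 * ∑ α ∈ Cl c.1 c.2, M α.2 := by rw [mul_sum]
        _ ≤ 2 ^ 21 * 2 ^ (c.2 : ℕ) := by gcongr; exact hClmass _ _
        _ = _ := by ring
  · intro j
    have hcGG : ∀ α, cost j (GG α) = cost j (G α.1 α.2) / (μ * 2 ^ α.2) := fun α => by
      simp only [GG, map_smul, smul_eq_mul, M]
      rw [div_eq_inv_mul]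
    have hc0 : ∀ α, 0 ≤ cost j (GG α) := fun α => cost_nonneg j (hGG0 α)
    have hrow : ∀ Q, ∑ α ∈ univ ×ˢ range Q, cost j (GG α) ≤ 2 ^ 22 := by
      intro Q
      rw [sum_product]
      calc ∑ m, ∑ q ∈ range Q, cost j (GG (m, q)) ≤ ∑ m, 2 ^ 22 * a m j ^ 2 :=
            sum_le_sum fun m _ => by simpa only [hcGG] using hG3 m Q j
        _ = 2 ^ 22 * ∑ m, a m j ^ 2 := by rw [mul_sum]
        _ ≤ 2 ^ 22 := by linarith [hcol j]
    have hObj : ∑ α ∈ Obj, cost j (GG α) ≤ 2 ^ 22 := by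
      refine le_trans ?_ (hrow (Obj.sup Prod.snd + 1))
      refine sum_le_sum_of_subset_of_nonneg (fun α hα => ?_) fun α _ _ => hc0 α
      simp only [mem_product, mem_univ, mem_range, true_and]
      exact Nat.lt_succ_of_le (le_sup (f := Prod.snd) hα)
    have hnone : cost j (L none) ≤ 2 ^ 22 := by
      simp only [L, map_sum]
      have := hrow 1
      rw [sum_product] at this
      simpa using this
    have hfix : ∀ h : ℕ, ∑ z : Fin n, ∑ α ∈ Cl z h, cost j (GG α) ≤ 2 ^ 22 := by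
      intro h
      refine le_trans ?_ hObj
      calc ∑ z : Fin n, ∑ α ∈ Cl z h, cost j (GG α)
          ≤ ∑ z : Fin n, ∑ α ∈ Obj, if x α = z then cost j (GG α) else 0 := by
            refine sum_le_sum fun z _ => ?_
            rw [← sum_filter]
            refine sum_le_sum_of_subset_of_nonneg (fun α hα => ?_) fun α _ _ => hc0 α
            have := mem_filter.mp hα
            exact mem_filter.mpr ⟨this.1, this.2.1⟩
        _ = ∑ α ∈ Obj, ∑ z : Fin n, if x α = z then cost j (GG α) else 0 := sum_comm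
        _ ≤ ∑ α ∈ Obj, cost j (GG α) := by
            refine sum_le_sum fun α hα => ?_
            rw [sum_eq_single (⟨x α, hxn α hα⟩ : Fin n)]
            · simp
            · intro z _ hz
              rw [if_neg]
              intro h'
              exact hz (Fin.ext h'.symm)
            · simp
    rw [Fintype.sum_option, Fintype.sum_prod_type_right]
    have hsome : ∑ h : Fin (H0 + 1), ∑ z : Fin n, cost j (L (some (z, h)))
        ≤ ∑ h : Fin (H0 + 1), ((2 : ℝ) ^ (h : ℕ))⁻¹ * 2 ^ 22 := by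
      refine sum_le_sum fun h _ => ?_
      simp only [L, map_smul, map_sum, smul_eq_mul]
      rw [← mul_sum]
      exact mul_le_mul_of_nonneg_left (hfix h) (by positivity)
    rw [← sum_mul, Fin.sum_univ_eq_sum_range (fun h => ((2 : ℝ) ^ h)⁻¹) (H0 + 1)] at hsome
    have := sum_inv_two_pow_le (H0 + 1)
    nlinarith
  · intro g τ hτ hq k hk
    have hq0 : ∀ α, 0 ≤ qf g (GG α) := fun α => qf_nonneg g (hGG0 α)
    have hrow : ∀ m, (seg (a m) 0 k ⬝ᵥ g) ^ 2 ≤ M (st m k) + qf g (GG (m, st m k)) := by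
      intro m
      have h1 := hG1 m (st m k) g k hk (le_stage μ hμ _)
      simp only [GG, map_smul, smul_eq_mul]
      have hp := hMpos (st m k)
      have h2 : (M (st m k))⁻¹ * (seg (a m) 0 k ⬝ᵥ g) ^ 4
          ≤ (M (st m k))⁻¹ * qf g (G m (st m k)) :=
        mul_le_mul_of_nonneg_left h1 (inv_nonneg.mpr hp.le)
      have h3 : (seg (a m) 0 k ⬝ᵥ g) ^ 2 - M (st m k)
          ≤ (M (st m k))⁻¹ * (seg (a m) 0 k ⬝ᵥ g) ^ 4 := by
        rw [le_inv_mul_iff₀ hp]
        nlinarith [sq_nonneg ((seg (a m) 0 k ⬝ᵥ g) ^ 2 - M (st m k)),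
          mul_nonneg hp.le (sq_nonneg (seg (a m) 0 k ⬝ᵥ g))]
      linarith
    have hA : ∑ m with alive m k, M (st m k) ≤ 1 + 2 * D := by
      calc ∑ m with alive m k, M (st m k)
          ≤ ∑ m with alive m k, (μ + 2 * sm (a m) 0 k) :=
            sum_le_sum fun m _ => stage_bound μ hμ _ (sm_nonneg _ _ _)
        _ = ∑ m with alive m k, μ + 2 * ∑ m with alive m k, sm (a m) 0 k := by
            rw [sum_add_distrib, mul_sum]
        _ ≤ 1 + 2 * D := by
            have h1 : ∑ m with alive m k, μ ≤ ∑ _m : R, μ :=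
              sum_le_sum_of_subset_of_nonneg (filter_subset _ _) fun _ _ _ => hμ.le
            have h2 : ∑ _m : R, μ = (Fintype.card R : ℝ) * μ := by
              rw [sum_const, card_univ, nsmul_eq_mul]
            linarith [hD k hk]
    have hB0 : ∑ m ∈ (univ.filter fun m => alive m k) with st m k = 0,
        qf g (GG (m, st m k)) ≤ τ := by
      refine le_trans ?_ (hq none)
      simp only [L, map_sum]
      calc ∑ m ∈ (univ.filter fun m => alive m k) with st m k = 0, qf g (GG (m, st m k))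
          = ∑ m ∈ (univ.filter fun m => alive m k) with st m k = 0, qf g (GG (m, 0)) :=
            sum_congr rfl fun m hm => by rw [(mem_filter.mp hm).2]
        _ ≤ _ := sum_le_sum_of_subset_of_nonneg (subset_univ _) fun _ _ _ => hq0 _
    -- the chosen dyadic level of the cluster at `z`
    let hh : ℕ → ℕ := fun z => stage 1 one_pos (Rm z k)
    have hh1 : ∀ z, hh z < H0 + 1 := fun z => Nat.lt_succ_of_le (stage_le 1 one_pos _ (hRmle z k))
    have hh2 : ∀ z, Rm z k ≤ 2 ^ hh z := fun z => by simpa using le_stage 1 one_pos (Rm z k)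
    have hh3 : ∀ z, (2 : ℝ) ^ hh z ≤ 1 + 2 * Rm z k := fun z => by
      simpa using stage_bound 1 one_pos (Rm z k) (hRm0 z k)
    have hCl : ∀ z ∈ X k, ∑ α ∈ Cl z (hh z), qf g (GG α) ≤ τ * (1 + 2 * Rm z k) := by
      intro z hz
      have hzn : z < n := by have := mem_range.mp (hX1 k hz); omega
      have h1 := hq (some (⟨z, hzn⟩, ⟨hh z, hh1 z⟩))
      simp only [L, map_smul, map_sum, smul_eq_mul] at h1
      rw [inv_mul_le_iff₀ (by positivity)] at h1
      refine h1.trans ?_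
      rw [mul_comm]
      exact mul_le_mul_of_nonneg_left (hh3 z) hτ
    let Act : Finset R := (univ.filter fun m => alive m k).filter fun m => ¬ st m k = 0
    have hActObj : ∀ m ∈ Act, (m, st m k) ∈ Obj := by
      intro m hm
      simp only [Act, mem_filter, mem_univ, true_and] at hm
      refine mem_image.mpr ⟨(m, k), ?_, rfl⟩
      simp only [mem_filter, mem_product, mem_univ, mem_range, true_and]
      exact ⟨by omega, hm.1, hm.2⟩
    have hActP : ∀ m ∈ Act, k ≤ l (m, st m k) ∧ x (m, st m k) ∈ X k := by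
      intro m hm
      have hm' := hm
      simp only [Act, mem_filter, mem_univ, true_and] at hm'
      exact hP1 _ (hActObj m hm) k hk hm'.1 rfl
    have hB1 : ∑ m ∈ Act, qf g (GG (m, st m k)) ≤ ∑ z ∈ X k, τ * (1 + 2 * Rm z k) := by
      rw [← sum_fiberwise_of_maps_to (s := Act) (t := X k) (g := fun m => x (m, st m k))
        (fun m hm => (hActP m hm).2)]
      refine sum_le_sum fun z hz => le_trans ?_ (hCl z hz)
      rw [← sum_image (s := Act.filter fun m => x (m, st m k) = z) (g := fun m => (m, st m k))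
        (f := fun α => qf g (GG α)) (fun m _ m' _ h => (Prod.ext_iff.mp h).1)]
      refine sum_le_sum_of_subset_of_nonneg (fun α hα => ?_) fun _ _ _ => hq0 _
      obtain ⟨m, hm, rfl⟩ := mem_image.mp hα
      have hm' := mem_filter.mp hm
      exact mem_filter.mpr ⟨hActObj m hm'.1, hm'.2,
        (hRmanti z k _ (hActP m hm'.1).1).trans (hh2 z)⟩
    have hRsum : ∑ z ∈ X k, Rm z k ≤ 8 * D := by
      let T : Finset (R × ℕ) := Obj.filter fun β => x β ∈ X k ∧ k ≤ l β
      have hT : ∀ β ∈ T, alive β.1 k ∧ M β.2 ≤ 4 * sm (a β.1) 0 k := by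
        intro β hβ
        have := mem_filter.mp hβ
        exact hP2 β this.1 k (mem_range.mp (hX1 k this.2.1)) this.2.2
      have e1 : ∑ z ∈ X k, Rm z k = ∑ β ∈ T, M β.2 := by
        rw [← sum_fiberwise_of_maps_to (s := T) (t := X k) (g := x)
          (fun β hβ => (mem_filter.mp hβ).2.1)]
        refine sum_congr rfl fun z hz => sum_congr ?_ fun _ _ => rfl
        ext β
        simp only [T, mem_filter]
        constructor
        · rintro ⟨h1, h2, h3⟩
          exact ⟨⟨h1, h2 ▸ hz, h3⟩, h2⟩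
        · rintro ⟨⟨h1, _, h3⟩, h2⟩
          exact ⟨h1, h2, h3⟩
      rw [e1, ← sum_fiberwise_of_maps_to (s := T) (t := univ.filter fun m => alive m k)
        (g := Prod.fst) (fun β hβ => mem_filter.mpr ⟨mem_univ _, (hT β hβ).1⟩)]
      calc ∑ m with alive m k, ∑ β ∈ T with β.1 = m, M β.2
          ≤ ∑ m with alive m k, 8 * sm (a m) 0 k := by
            refine sum_le_sum fun m _ => ?_
            rw [← sum_image (s := T.filter fun β => β.1 = m) (g := Prod.snd) (f := M)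
              (fun β hβ β' hβ' h => Prod.ext
                ((mem_filter.mp hβ).2.trans (mem_filter.mp hβ').2.symm) h)]
            have := geom_sum_le ((T.filter fun β => β.1 = m).image Prod.snd) μ
              (4 * sm (a m) 0 k) hμ (by linarith [sm_nonneg (a m) 0 k]) (by
                intro q hq
                obtain ⟨β, hβ, rfl⟩ := mem_image.mp hq
                have h1 := mem_filter.mp hβ
                have h2 := (hT β h1.1).2
                rwa [h1.2] at h2)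
            linarith
        _ = 8 * ∑ m with alive m k, sm (a m) 0 k := by rw [mul_sum]
        _ ≤ 8 * D := by linarith [hD k hk]
    have hB2 : ∑ z ∈ X k, τ * (1 + 2 * Rm z k) ≤ τ * (8 * d + 16 * D) := by
      rw [← mul_sum, sum_add_distrib, ← mul_sum, sum_const, nsmul_eq_mul, mul_one]
      exact mul_le_mul_of_nonneg_left (by linarith [hX3 k]) hτ
    have hsplit := sum_filter_add_sum_filter_not (univ.filter fun m => alive m k)
      (fun m => st m k = 0) (fun m => qf g (GG (m, st m k)))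
    calc ∑ m with alive m k, (seg (a m) 0 k ⬝ᵥ g) ^ 2
        ≤ ∑ m with alive m k, (M (st m k) + qf g (GG (m, st m k))) := sum_le_sum fun m _ => hrow m
      _ = ∑ m with alive m k, M (st m k) + ∑ m with alive m k, qf g (GG (m, st m k)) :=
          sum_add_distrib
      _ ≤ _ := by
          rw [← hsplit]
          have : ∑ m ∈ Act, qf g (GG (m, st m k)) ≤ τ * (8 * d + 16 * D) := hB1.trans hB2
          linarith

end Crest.Agent.R239
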