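import Crest.Agent.R239.Moments

/-!
# The cut-off functions `(1 - Q)₊` of quartic forms and their second differences
-/

set_option autoImplicit false

namespace Crest.Agent.R239

open Finset MeasureTheory

variable {n : ℕ}

theorem qf_apply (x : Fin n → ℝ) (L : QF n) :
    qf x L = ∑ u ∈ L.support, L u * (u ⬝ᵥ x) ^ 4 := ev_apply _ _

theorem continuous_qf (L : QF n) : Continuous fun x => qf x L := by
  simp only [qf_apply]
  exact continuous_finsetSum _ fun u _ => continuous_const.mul ((continuous_dot u).pow 4)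

theorem qf_neg (L : QF n) (x : Fin n → ℝ) : qf (-x) L = qf x L := by
  simp only [qf_apply, dotProduct_neg]
  exact sum_congr rfl fun u _ => by ring

theorem qf_zero (L : QF n) : qf 0 L = 0 := by
  simp [qf_apply]

theorem qf_convex {L : QF n} (hL : 0 ≤ L) (x y : Fin n → ℝ) {a b : ℝ} (ha : 0 ≤ a) (hb : 0 ≤ b)
    (hab : a + b = 1) : qf (a • x + b • y) L ≤ a * qf x L + b * qf y L := by
  simp only [qf_apply, mul_sum, ← sum_add_distrib]
  refine sum_le_sum fun u _ => ?_
  have h := (Even.convexOn_pow (𝕜 := ℝ) (n := 4) (by decide)).2 (Set.mem_univ (u ⬝ᵥ x))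
    (Set.mem_univ (u ⬝ᵥ y)) ha hb hab
  simp only [smul_eq_mul] at h
  rw [dotProduct_add, dotProduct_smul, dotProduct_smul, smul_eq_mul, smul_eq_mul]
  have := mul_le_mul_of_nonneg_left h (hL u)
  linarith

/-- The cut-off `(1 - Q_L)₊`. -/
noncomputable def chi (L : QF n) (x : Fin n → ℝ) : ℝ := max (1 - qf x L) 0

theorem chi_nonneg (L : QF n) (x : Fin n → ℝ) : 0 ≤ chi L x := le_max_right _ _

theorem chi_le_one {L : QF n} (hL : 0 ≤ L) (x : Fin n → ℝ) : chi L x ≤ 1 :=
  max_le (by linarith [qf_nonneg x hL]) zero_le_one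

theorem continuous_chi (L : QF n) : Continuous (chi L) :=
  (continuous_const.sub (continuous_qf L)).max continuous_const

theorem chi_neg (L : QF n) (x : Fin n → ℝ) : chi L (-x) = chi L x := by
  simp only [chi, qf_neg]

theorem chi_zero (L : QF n) : chi L 0 = 1 := by
  simp [chi, qf_zero]

theorem chi_mid {L : QF n} (hL : 0 ≤ L) (x y : Fin n → ℝ) :
    chi L x * chi L y ≤ chi L ((1 / 2 : ℝ) • x + (1 / 2 : ℝ) • y) ^ 2 := by
  have h := qf_convex hL x y (a := 1 / 2) (b := 1 / 2) (by norm_num) (by norm_num) (by norm_num)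
  have h3 : 1 - qf ((1 / 2 : ℝ) • x + (1 / 2 : ℝ) • y) L
      ≤ chi L ((1 / 2 : ℝ) • x + (1 / 2 : ℝ) • y) := le_max_left _ _
  rcases le_total (1 - qf x L) 0 with h1 | h1
  · rw [show chi L x = 0 from max_eq_right h1, zero_mul]; positivity
  rcases le_total (1 - qf y L) 0 with h2 | h2
  · rw [show chi L y = 0 from max_eq_right h2, mul_zero]; positivity
  rw [show chi L x = 1 - qf x L from max_eq_left h1, show chi L y = 1 - qf y L from max_eq_left h2]
  have h4 : ((1 - qf x L) + (1 - qf y L)) / 2 ≤ chi L ((1 / 2 : ℝ) • x + (1 / 2 : ℝ) • y) := by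
    linarith
  have h5 : (((1 - qf x L) + (1 - qf y L)) / 2) ^ 2
      ≤ chi L ((1 / 2 : ℝ) • x + (1 / 2 : ℝ) • y) ^ 2 :=
    pow_le_pow_left₀ (by linarith) h4 2
  nlinarith [sq_nonneg (qf x L - qf y L)]

theorem chi_shift_le {L : QF n} (hL : 0 ≤ L) (x v : Fin n → ℝ) :
    chi L (x + v) * chi L (x - v) ≤ chi L x ^ 2 := by
  have h := chi_mid hL (x + v) (x - v)
  have e : (1 / 2 : ℝ) • (x + v) + (1 / 2 : ℝ) • (x - v) = x := by
    funext i
    simp only [Pi.add_apply, Pi.smul_apply, Pi.sub_apply, smul_eq_mul]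
    ring
  rwa [e] at h

theorem second_diff_real {f s r : ℝ} (hf0 : 0 ≤ f) (hf1 : f ≤ 1) (hs : 0 ≤ s) :
    (1 - f) ^ 2 - max (1 - (f + s + r)) 0 * max (1 - (f + s - r)) 0 ≤ 2 * s + r ^ 2 := by
  rcases le_total (1 - (f + s + r)) 0 with h1 | h1
  · rw [max_eq_right h1, zero_mul]
    nlinarith [sq_nonneg (1 - f - r)]
  rcases le_total (1 - (f + s - r)) 0 with h2 | h2
  · rw [max_eq_right h2, mul_zero]
    nlinarith [sq_nonneg (1 - f + r)]
  rw [max_eq_left h1, max_eq_left h2]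
  nlinarith [sq_nonneg s]

/-- The quadratic majorant of the second difference of the cut-off. -/
noncomputable def psi (L : QF n) (v x : Fin n → ℝ) : ℝ :=
  ∑ u ∈ L.support, L u * (76 * (u ⬝ᵥ v) ^ 2 * (u ⬝ᵥ x) ^ 2 + 2 * (u ⬝ᵥ v) ^ 4)

theorem psi_nonneg {L : QF n} (hL : 0 ≤ L) (v x : Fin n → ℝ) : 0 ≤ psi L v x :=
  sum_nonneg fun u _ => mul_nonneg (hL u) (by positivity)

theorem chi_second_diff {L : QF n} (hL : 0 ≤ L) (v x : Fin n → ℝ) (hv : qf v L ≤ 1) :
    chi L x ^ 2 - chi L (x + v) * chi L (x - v) ≤ psi L v x := by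
  have hL' : ∀ u, 0 ≤ L u := fun u => hL u
  rcases le_total (1 - qf x L) 0 with h1 | h1
  · rw [show chi L x = 0 from max_eq_right h1]
    have := mul_nonneg (chi_nonneg L (x + v)) (chi_nonneg L (x - v))
    have := psi_nonneg hL v x
    linarith
  set T := ∑ u ∈ L.support, L u * ((u ⬝ᵥ v) ^ 2 * (u ⬝ᵥ x) ^ 2) with hT
  set A := ∑ u ∈ L.support, L u * ((u ⬝ᵥ x) ^ 3 * (u ⬝ᵥ v)) with hA
  set B := ∑ u ∈ L.support, L u * ((u ⬝ᵥ x) * (u ⬝ᵥ v) ^ 3) with hB
  have hT0 : 0 ≤ T := sum_nonneg fun u _ => mul_nonneg (hL' u) (by positivity)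
  have hq0 := qf_nonneg x hL
  have hv0 := qf_nonneg v hL
  have ep : qf (x + v) L = qf x L + (6 * T + qf v L) + (4 * A + 4 * B) := by
    simp only [qf_apply, hT, hA, hB, mul_sum, ← sum_add_distrib, dotProduct_add]
    exact sum_congr rfl fun u _ => by ring
  have em : qf (x - v) L = qf x L + (6 * T + qf v L) - (4 * A + 4 * B) := by
    simp only [qf_apply, hT, hA, hB, mul_sum, ← sum_add_distrib, ← sum_sub_distrib,
      dotProduct_sub]
    exact sum_congr rfl fun u _ => by ring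
  have eψ : psi L v x = 76 * T + 2 * qf v L := by
    simp only [psi, qf_apply, hT, mul_sum, ← sum_add_distrib]
    exact sum_congr rfl fun u _ => by ring
  have hA2 : A ^ 2 ≤ qf x L * T := by
    rw [qf_apply]
    exact sum_sq_le_sum_mul_sum_of_sq_le_mul _
      (fun u _ => mul_nonneg (hL' u) (by positivity))
      (fun u _ => mul_nonneg (hL' u) (by positivity)) (fun u _ => le_of_eq (by ring))
  have hB2 : B ^ 2 ≤ T * qf v L := by
    rw [qf_apply]
    exact sum_sq_le_sum_mul_sum_of_sq_le_mul _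
      (fun u _ => mul_nonneg (hL' u) (by positivity))
      (fun u _ => mul_nonneg (hL' u) (by positivity)) (fun u _ => le_of_eq (by ring))
  have hA3 : A ^ 2 ≤ T := hA2.trans (mul_le_of_le_one_left hT0 (by linarith))
  have hB3 : B ^ 2 ≤ T := hB2.trans (mul_le_of_le_one_right hT0 hv)
  have key := second_diff_real (f := qf x L) (s := 6 * T + qf v L) (r := 4 * A + 4 * B) hq0
    (by linarith) (by linarith)
  rw [show chi L x = 1 - qf x L from max_eq_left h1, chi, chi, ep, em, eψ]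
  nlinarith [sq_nonneg (A - B)]

theorem prod_sub_prod_le {C : Type*} [DecidableEq C] (A B ψ : C → ℝ) (hB : ∀ c, 0 ≤ B c)
    (hBA : ∀ c, B c ≤ A c) (hψ : ∀ c, A c - B c ≤ ψ c) (S : Finset C) :
    ∏ c ∈ S, A c - ∏ c ∈ S, B c ≤ ∑ c ∈ S, ψ c * ∏ c' ∈ S.erase c, A c' := by
  have hA : ∀ c, 0 ≤ A c := fun c => (hB c).trans (hBA c)
  induction S using Finset.induction_on with
  | empty => simp
  | insert a S ha ih =>
    rw [prod_insert ha, prod_insert ha, sum_insert ha, erase_insert ha]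
    have e : ∑ c ∈ S, ψ c * ∏ c' ∈ (insert a S).erase c, A c'
        = A a * ∑ c ∈ S, ψ c * ∏ c' ∈ S.erase c, A c' := by
      rw [mul_sum]
      refine sum_congr rfl fun c hc => ?_
      have hne : a ≠ c := fun h => ha (h ▸ hc)
      rw [erase_insert_of_ne hne, prod_insert (fun h => ha (mem_of_mem_erase h))]
      ring
    rw [e]
    have p1 : 0 ≤ ∏ c ∈ S, A c := prod_nonneg fun c _ => hA c
    have p2 : ∏ c ∈ S, B c ≤ ∏ c ∈ S, A c := prod_le_prod (fun c _ => hB c) fun c _ => hBA c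
    have h1 := mul_le_mul_of_nonneg_right (hψ a) p1
    have h2 := mul_le_mul_of_nonneg_left ih (hA a)
    have h3 := mul_le_mul_of_nonneg_right (hBA a) (sub_nonneg.mpr p2)
    nlinarith

theorem adm_prod {C : Type*} (L : C → QF n) (hL : ∀ c, 0 ≤ L c) (S : Finset C) :
    Adm fun x => ∏ c ∈ S, chi (L c) x ^ 2 where
  cont := continuous_finsetProd _ fun c _ => (continuous_chi (L c)).pow 2
  nonneg := fun x => prod_nonneg fun c _ => sq_nonneg _
  le_one := fun x => prod_le_one (fun c _ => sq_nonneg _) fun c _ =>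
    pow_le_one₀ (chi_nonneg _ _) (chi_le_one (hL c) x)
  even := fun x => by simp only [chi_neg]
  mid := fun x y => by
    rw [← prod_mul_distrib, ← prod_pow]
    refine prod_le_prod (fun c _ => by positivity) fun c _ => ?_
    rw [← mul_pow]
    exact pow_le_pow_left₀ (mul_nonneg (chi_nonneg _ _) (chi_nonneg _ _)) (chi_mid (hL c) x y) 2

theorem Adm.integral_qf {f : (Fin n → ℝ) → ℝ} (hf : Adm f) {L : QF n} (hL : 0 ≤ L) :
    Integrable (fun x => qf x L * (gauss x * f x)) ∧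
      ∫ x, qf x L * (gauss x * f x) ≤ 96 * mass L * ∫ x, gauss x * f x := by
  have e : (fun x => qf x L * (gauss x * f x))
      = fun x => ∑ u ∈ L.support, L u * ((u ⬝ᵥ x) ^ 4 * (gauss x * f x)) := by
    funext x
    rw [qf_apply, sum_mul]
    exact sum_congr rfl fun u _ => by ring
  have hi : ∀ u ∈ L.support, Integrable fun x => L u * ((u ⬝ᵥ x) ^ 4 * (gauss x * f x)) :=
    fun u _ => (hf.moment_four u).1.const_mul _
  rw [e]
  refine ⟨integrable_finsetSum _ hi, ?_⟩
  rw [integral_finsetSum _ hi, mass, ev_apply, mul_sum, sum_mul]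
  refine sum_le_sum fun u _ => ?_
  rw [integral_const_mul]
  have := mul_le_mul_of_nonneg_left (hf.moment_four u).2 (hL u)
  linarith

theorem Adm.integral_psi {f : (Fin n → ℝ) → ℝ} (hf : Adm f) {L : QF n} (hL : 0 ≤ L) (j : Fin n)
    {η : ℝ} (hη : η ^ 2 ≤ 1) :
    Integrable (fun x => psi L (Pi.single j η) x * (gauss x * f x)) ∧
      ∫ x, psi L (Pi.single j η) x * (gauss x * f x)
        ≤ 610 * η ^ 2 * cost j L * ∫ x, gauss x * f x := by
  have hZ : 0 ≤ ∫ x, gauss x * f x :=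
    integral_nonneg fun x => mul_nonneg (gauss_pos x).le (hf.nonneg x)
  have e : (fun x => psi L (Pi.single j η) x * (gauss x * f x))
      = fun x => ∑ u ∈ L.support, ((L u * 76 * (u j * η) ^ 2) * ((u ⬝ᵥ x) ^ 2 * (gauss x * f x))
        + (L u * 2 * (u j * η) ^ 4) * (gauss x * f x)) := by
    funext x
    rw [psi, sum_mul]
    exact sum_congr rfl fun u _ => by rw [dotProduct_single]; ring
  have hi : ∀ u ∈ L.support, Integrable fun x =>
      ((L u * 76 * (u j * η) ^ 2) * ((u ⬝ᵥ x) ^ 2 * (gauss x * f x))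
        + (L u * 2 * (u j * η) ^ 4) * (gauss x * f x)) :=
    fun u _ => ((hf.moment_two u).1.const_mul _).add (hf.integrable.const_mul _)
  rw [e]
  refine ⟨integrable_finsetSum _ hi, ?_⟩
  rw [integral_finsetSum _ hi, cost, ev_apply, mul_sum, sum_mul]
  refine sum_le_sum fun u _ => ?_
  rw [integral_add ((hf.moment_two u).1.const_mul _) (hf.integrable.const_mul _),
    integral_const_mul, integral_const_mul]
  have hu : 0 ≤ L u := hL u
  have h1 := mul_le_mul_of_nonneg_left (hf.moment_two u).2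
    (show 0 ≤ L u * 76 * (u j * η) ^ 2 by positivity)
  have h2 : (u j * η) ^ 4 ≤ η ^ 2 * ((u ⬝ᵥ u) * u j ^ 2) := by
    have h3 := sq_le_dot_self u j
    have h4 : u j ^ 2 * η ^ 2 ≤ u ⬝ᵥ u := (mul_le_of_le_one_right (sq_nonneg _) hη).trans h3
    calc (u j * η) ^ 4 = (u j ^ 2 * η ^ 2) * (η ^ 2 * u j ^ 2) := by ring
      _ ≤ (u ⬝ᵥ u) * (η ^ 2 * u j ^ 2) := by gcongr
      _ = _ := by ring
  have h5 := mul_le_mul_of_nonneg_right (mul_le_mul_of_nonneg_left h2
    (show 0 ≤ L u * 2 by positivity)) hZ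
  nlinarith

end Crest.Agent.R239
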