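import Mathlib

/-!
# Quartic forms given by finitely supported non-negative weights on vectors
-/

set_option autoImplicit false

namespace Crest.Agent.R239

open Finset

/-- Finitely supported weights on vectors of `ℝⁿ`. -/
abbrev QF (n : ℕ) := (Fin n → ℝ) →₀ ℝ

variable {n : ℕ}

/-- Pairing of a weight with a function. -/
noncomputable def ev (φ : (Fin n → ℝ) → ℝ) : QF n →ₗ[ℝ] ℝ := Finsupp.linearCombination ℝ φ

theorem ev_apply (φ : (Fin n → ℝ) → ℝ) (L : QF n) :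
    ev φ L = ∑ u ∈ L.support, L u * φ u := by
  simp [ev, Finsupp.linearCombination_apply, Finsupp.sum]

theorem ev_single (φ : (Fin n → ℝ) → ℝ) (u : Fin n → ℝ) (w : ℝ) :
    ev φ (Finsupp.single u w) = w * φ u := by
  simp [ev]

theorem ev_nonneg {φ : (Fin n → ℝ) → ℝ} {L : QF n} (hL : 0 ≤ L) (h : ∀ u, 0 ≤ φ u) :
    0 ≤ ev φ L := by
  rw [ev_apply]
  exact Finset.sum_nonneg fun u _ => mul_nonneg (hL u) (h u)

/-- The quartic form `∑ w_u ⟨u, g⟩⁴`. -/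
noncomputable def qf (g : Fin n → ℝ) : QF n →ₗ[ℝ] ℝ := ev fun u => (u ⬝ᵥ g) ^ 4

/-- `∑ w_u |u|⁴`. -/
noncomputable def mass : QF n →ₗ[ℝ] ℝ := ev fun u => (u ⬝ᵥ u) ^ 2

/-- `∑ w_u |u|² u_j²`. -/
noncomputable def cost (j : Fin n) : QF n →ₗ[ℝ] ℝ := ev fun u => (u ⬝ᵥ u) * u j ^ 2

theorem dot_self_nonneg (u : Fin n → ℝ) : 0 ≤ u ⬝ᵥ u :=
  Finset.sum_nonneg fun i _ => mul_self_nonneg (u i)

theorem sq_le_dot_self (u : Fin n → ℝ) (j : Fin n) : u j ^ 2 ≤ u ⬝ᵥ u := by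
  have := Finset.single_le_sum (f := fun i => u i * u i) (fun i _ => mul_self_nonneg (u i))
    (Finset.mem_univ j)
  simpa [dotProduct, sq] using this

theorem qf_nonneg (g : Fin n → ℝ) {L : QF n} (hL : 0 ≤ L) : 0 ≤ qf g L :=
  ev_nonneg hL fun _ => by positivity

theorem mass_nonneg {L : QF n} (hL : 0 ≤ L) : 0 ≤ mass L :=
  ev_nonneg hL fun _ => by positivity

theorem cost_nonneg (j : Fin n) {L : QF n} (hL : 0 ≤ L) : 0 ≤ cost j L :=
  ev_nonneg hL fun u => mul_nonneg (dot_self_nonneg u) (sq_nonneg _)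

theorem qf_single (g u : Fin n → ℝ) (w : ℝ) :
    qf g (Finsupp.single u w) = w * (u ⬝ᵥ g) ^ 4 := ev_single _ _ _

theorem mass_single (u : Fin n → ℝ) (w : ℝ) :
    mass (Finsupp.single u w) = w * (u ⬝ᵥ u) ^ 2 := ev_single _ _ _

theorem cost_single (j : Fin n) (u : Fin n → ℝ) (w : ℝ) :
    cost j (Finsupp.single u w) = w * ((u ⬝ᵥ u) * u j ^ 2) := ev_single _ _ _

theorem qf_smul_nonneg {L : QF n} (hL : 0 ≤ L) {c : ℝ} (hc : 0 ≤ c) : 0 ≤ c • L :=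
  fun u => by simpa using mul_nonneg hc (hL u)

theorem qf_single_nonneg (u : Fin n → ℝ) {w : ℝ} (hw : 0 ≤ w) :
    (0 : QF n) ≤ Finsupp.single u w := Finsupp.single_nonneg.mpr hw

/-- The part of the vector `a` on the coordinates `s ≤ j < t`. -/
def seg (a : Fin n → ℝ) (s t : ℕ) : Fin n → ℝ :=
  fun j => if s ≤ (j : ℕ) ∧ (j : ℕ) < t then a j else 0

/-- Squared norm of `seg a s t`. -/
def sm (a : Fin n → ℝ) (s t : ℕ) : ℝ := seg a s t ⬝ᵥ seg a s t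

theorem seg_add (a : Fin n → ℝ) {s t r : ℕ} (h1 : s ≤ t) (h2 : t ≤ r) :
    seg a s r = seg a s t + seg a t r := by
  funext j
  simp only [seg, Pi.add_apply]
  split_ifs <;> first | omega | simp

theorem seg_self (a : Fin n → ℝ) (s : ℕ) : seg a s s = 0 := by
  funext j
  simp only [seg, Pi.zero_apply]
  split_ifs with h
  · omega
  · rfl

theorem seg_sq_add (a : Fin n → ℝ) {s t r : ℕ} (h1 : s ≤ t) (h2 : t ≤ r) (j : Fin n) :
    seg a s r j ^ 2 = seg a s t j ^ 2 + seg a t r j ^ 2 := by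
  simp only [seg]
  split_ifs <;> first | omega | simp

theorem seg_sq_le (a : Fin n → ℝ) (s t : ℕ) (j : Fin n) : seg a s t j ^ 2 ≤ a j ^ 2 := by
  simp only [seg]
  split_ifs
  · exact le_rfl
  · simpa using sq_nonneg (a j)

theorem sm_eq (a : Fin n → ℝ) (s t : ℕ) : sm a s t = ∑ j, seg a s t j ^ 2 := by
  simp [sm, dotProduct, sq]

theorem sm_add (a : Fin n → ℝ) {s t r : ℕ} (h1 : s ≤ t) (h2 : t ≤ r) :
    sm a s r = sm a s t + sm a t r := by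
  simp only [sm_eq, ← Finset.sum_add_distrib]
  exact Finset.sum_congr rfl fun j _ => seg_sq_add a h1 h2 j

theorem sm_nonneg (a : Fin n → ℝ) (s t : ℕ) : 0 ≤ sm a s t := dot_self_nonneg _

theorem sm_self (a : Fin n → ℝ) (s : ℕ) : sm a s s = 0 := by
  simp [sm, seg_self]

theorem sm_mono (a : Fin n → ℝ) {s t r : ℕ} (h1 : s ≤ t) (h2 : t ≤ r) : sm a s t ≤ sm a s r := by
  rw [sm_add a h1 h2]
  linarith [sm_nonneg a t r]

theorem add_pow_four_le (x y : ℝ) : (x + y) ^ 4 ≤ 512 * x ^ 4 + 3 / 2 * y ^ 4 := by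
  have h1 : (x + y) ^ 2 ≤ 8 * x ^ 2 + 8 / 7 * y ^ 2 := by nlinarith [sq_nonneg (7 * x - y)]
  have h2 : (8 * x ^ 2 + 8 / 7 * y ^ 2) ^ 2 ≤ 512 * x ^ 4 + 3 / 2 * y ^ 4 := by
    nlinarith [sq_nonneg (49 * x ^ 2 - y ^ 2), sq_nonneg (y ^ 2)]
  have h0 : 0 ≤ (x + y) ^ 2 := sq_nonneg _
  calc (x + y) ^ 4 = ((x + y) ^ 2) ^ 2 := by ring
    _ ≤ (8 * x ^ 2 + 8 / 7 * y ^ 2) ^ 2 := by gcongr
    _ ≤ _ := h2

end Crest.Agent.R239
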