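import Crest.Agent.R239.Cutoff

/-!
# A density supported on the intersection of quartic constraints, almost shift invariant
-/

set_option autoImplicit false

namespace Crest.Agent.R239

open Finset MeasureTheory

variable {n : ℕ}

theorem abs_sq_sub_sq_le (a b : ℝ) :
    |a ^ 2 - b ^ 2| ≤ (10 + 1 / 20) * (a ^ 2 + b ^ 2) - 20 * (a * b) := by
  rw [abs_le]
  constructor
  · nlinarith [sq_nonneg (20 * (a - b) + (a + b)), sq_nonneg (a - b)]
  · nlinarith [sq_nonneg (20 * (a - b) - (a + b)), sq_nonneg (a - b)]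

theorem exists_density {C : Type} [Fintype C] (L : C → QF n) (hL : ∀ c, 0 ≤ L c)
    (hm : ∀ c, mass (L c) ≤ 1 / 400) (κ η : ℝ) (hκ : ∀ j, ∑ c, cost j (L c) ≤ κ)
    (hη : η ^ 2 ≤ 1) (hδ : η ^ 2 * (1 / 2 + 1220 * κ) ≤ 1 / 200) :
    ∃ p : (Fin n → ℝ) → ℝ, (∀ x, 0 ≤ p x) ∧ Integrable p ∧ ∫ x, p x = 1 ∧
      (∀ x, p x ≠ 0 → ∀ c, qf x (L c) ≤ 1) ∧
      ∀ j : Fin n, ∫ x : Fin n → ℝ, |p (x + (Pi.single j η : Fin n → ℝ))
        - p (x - (Pi.single j η : Fin n → ℝ))| ≤ 1 / 5 := by
  classical
  let W : Finset C → (Fin n → ℝ) → ℝ := fun S x => gauss x * ∏ c ∈ S, chi (L c) x ^ 2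
  have hWi : ∀ S, Integrable (W S) := fun S => (adm_prod L hL S).integrable
  have hW0 : ∀ S x, 0 ≤ W S x := fun S x =>
    mul_nonneg (gauss_pos x).le ((adm_prod L hL S).nonneg x)
  set Z := ∫ x, W univ x with hZ
  have hZpos : 0 < Z := by
    refine integral_pos_of_integrable_nonneg_nonzero (x := 0)
      (continuous_gauss.mul (adm_prod L hL univ).cont) (hWi univ) (hW0 univ) ?_
    simp [W, chi_zero, (gauss_pos _).ne']
  have hZc : ∀ c, ∫ x, W (univ.erase c) x ≤ 2 * Z := by
    intro c
    obtain ⟨i1, b1⟩ := (adm_prod L hL (univ.erase c)).integral_qf (hL c)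
    have hle : ∀ x, W (univ.erase c) x - 2 * (qf x (L c) * W (univ.erase c) x) ≤ W univ x := by
      intro x
      have e : W univ x = chi (L c) x ^ 2 * W (univ.erase c) x := by
        simp only [W]
        rw [← mul_prod_erase univ (fun c => chi (L c) x ^ 2) (mem_univ c)]
        ring
      have h1 : 1 - 2 * qf x (L c) ≤ chi (L c) x ^ 2 := by
        have h2 : 1 - qf x (L c) ≤ chi (L c) x := le_max_left _ _
        have h3 := chi_nonneg (L c) x
        nlinarith [sq_nonneg (chi (L c) x - 1)]
      have := mul_le_mul_of_nonneg_right h1 (hW0 (univ.erase c) x)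
      rw [e]
      linarith
    have i2 : Integrable fun x => 2 * (qf x (L c) * W (univ.erase c) x) := i1.const_mul 2
    have h2 := integral_mono ((hWi _).sub i2) (hWi univ) hle
    have h3 : ∫ x, (W (univ.erase c) - fun x => 2 * (qf x (L c) * W (univ.erase c) x)) x
        = (∫ x, W (univ.erase c) x) - 2 * ∫ x, qf x (L c) * W (univ.erase c) x := by
      rw [← integral_const_mul, ← integral_sub (hWi _) i2]
      rfl
    rw [h3] at h2
    have h4 : 0 ≤ ∫ x, W (univ.erase c) x := integral_nonneg (hW0 _)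
    have h5 := mul_le_mul_of_nonneg_right (hm c) h4
    have b1' : ∫ x, qf x (L c) * W (univ.erase c) x
        ≤ 96 * mass (L c) * ∫ x, W (univ.erase c) x := b1
    nlinarith
  refine ⟨fun x => W univ x / Z, fun x => div_nonneg (hW0 _ x) hZpos.le, (hWi _).div_const _,
    ?_, ?_, ?_⟩
  · rw [integral_div, ← hZ, div_self hZpos.ne']
  · intro x hx c
    by_contra hcon
    apply hx
    have : chi (L c) x = 0 := max_eq_right (by linarith [not_le.mp hcon])
    simp only [W]
    rw [prod_eq_zero (mem_univ c) (by rw [this]; simp)]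
    simp
  intro j
  set v : Fin n → ℝ := Pi.single j η with hv
  have hvv : v ⬝ᵥ v = η ^ 2 := by
    rw [hv, dotProduct_single]; simp [sq]
  have hqv : ∀ c, qf v (L c) ≤ 1 := by
    intro c
    refine le_trans ?_ ((hm c).trans (by norm_num))
    rw [qf_apply, mass, ev_apply]
    refine sum_le_sum fun u _ => mul_le_mul_of_nonneg_left ?_ (hL c u)
    rw [hv, dotProduct_single]
    have h3 := sq_le_dot_self u j
    have h4 : u j ^ 2 * η ^ 2 ≤ u ⬝ᵥ u := (mul_le_of_le_one_right (sq_nonneg _) hη).trans h3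
    calc (u j * η) ^ 4 = (u j ^ 2 * η ^ 2) ^ 2 := by ring
      _ ≤ _ := pow_le_pow_left₀ (by positivity) h4 2
  let φ : (Fin n → ℝ) → ℝ := fun x => Real.exp (-(x ⬝ᵥ x) / 4) * ∏ c, chi (L c) x
  have hφ0 : ∀ x, 0 ≤ φ x := fun x =>
    mul_nonneg (Real.exp_pos _).le (prod_nonneg fun c _ => chi_nonneg _ _)
  have hφ2 : ∀ x, W univ x = φ x ^ 2 := by
    intro x
    simp only [W, φ, gauss, mul_pow, prod_pow]
    congr 1
    rw [← Real.exp_nat_mul]
    congr 1
    push_cast
    ring
  let E : (Fin n → ℝ) → ℝ := fun x => ∑ c, psi (L c) v x * W (univ.erase c) x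
  have hEi : Integrable E := integrable_finsetSum _ fun c _ =>
    ((adm_prod L hL (univ.erase c)).integral_psi (hL c) j hη).1
  have hEb : ∫ x, E x ≤ 1220 * η ^ 2 * κ * Z := by
    simp only [E]
    rw [integral_finsetSum _ fun c _ =>
      ((adm_prod L hL (univ.erase c)).integral_psi (hL c) j hη).1]
    calc ∑ c, ∫ x, psi (L c) v x * W (univ.erase c) x
        ≤ ∑ c, 1220 * η ^ 2 * Z * cost j (L c) := by
          refine sum_le_sum fun c _ => ?_
          have b1 : ∫ x, psi (L c) v x * W (univ.erase c) x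
              ≤ 610 * η ^ 2 * cost j (L c) * ∫ x, W (univ.erase c) x :=
            ((adm_prod L hL (univ.erase c)).integral_psi (hL c) j hη).2
          have h0 : 0 ≤ 610 * η ^ 2 * cost j (L c) :=
            mul_nonneg (by positivity) (cost_nonneg j (hL c))
          have := mul_le_mul_of_nonneg_left (hZc c) h0
          linarith
      _ = 1220 * η ^ 2 * Z * ∑ c, cost j (L c) := by rw [mul_sum]
      _ ≤ 1220 * η ^ 2 * Z * κ := mul_le_mul_of_nonneg_left (hκ j) (by positivity)
      _ = _ := by ring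
  have hover : ∀ x, (1 - η ^ 2 / 2) * W univ x - E x ≤ φ (x + v) * φ (x - v) := by
    intro x
    have e1 : φ (x + v) * φ (x - v) = Real.exp (-(η ^ 2 / 2)) *
        (gauss x * ∏ c, chi (L c) (x + v) * chi (L c) (x - v)) := by
      simp only [φ, gauss, prod_mul_distrib]
      have : Real.exp (-((x + v) ⬝ᵥ (x + v)) / 4) * Real.exp (-((x - v) ⬝ᵥ (x - v)) / 4)
          = Real.exp (-(η ^ 2 / 2)) * Real.exp (-(x ⬝ᵥ x) / 2) := by
        rw [← Real.exp_add, ← Real.exp_add, ← hvv]
        congr 1
        simp only [add_dotProduct, dotProduct_add, sub_dotProduct, dotProduct_sub]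
        ring
      calc _ = (Real.exp (-((x + v) ⬝ᵥ (x + v)) / 4) * Real.exp (-((x - v) ⬝ᵥ (x - v)) / 4)) *
            ((∏ c, chi (L c) (x + v)) * ∏ c, chi (L c) (x - v)) := by ring
        _ = _ := by rw [this]; ring
    have h1 := prod_sub_prod_le (fun c => chi (L c) x ^ 2)
      (fun c => chi (L c) (x + v) * chi (L c) (x - v)) (fun c => psi (L c) v x)
      (fun c => mul_nonneg (chi_nonneg _ _) (chi_nonneg _ _)) (fun c => chi_shift_le (hL c) x v)
      (fun c => chi_second_diff (hL c) v x (hqv c)) univ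
    have h2 : ∏ c, chi (L c) (x + v) * chi (L c) (x - v) ≤ ∏ c, chi (L c) x ^ 2 :=
      prod_le_prod (fun c _ => mul_nonneg (chi_nonneg _ _) (chi_nonneg _ _))
        fun c _ => chi_shift_le (hL c) x v
    have h3 : 0 ≤ ∏ c, chi (L c) (x + v) * chi (L c) (x - v) :=
      prod_nonneg fun c _ => mul_nonneg (chi_nonneg _ _) (chi_nonneg _ _)
    have e2 : E x = gauss x * ∑ c, psi (L c) v x * ∏ c' ∈ univ.erase c, chi (L c') x ^ 2 := by
      simp only [E, W, mul_sum]
      exact sum_congr rfl fun c _ => by ring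
    have hg := gauss_pos x
    have h4 : 1 - η ^ 2 / 2 ≤ Real.exp (-(η ^ 2 / 2)) := by
      linarith [Real.add_one_le_exp (-(η ^ 2 / 2))]
    have h5 := mul_le_mul_of_nonneg_right h4 (mul_nonneg hg.le h3)
    have h6 := mul_le_mul_of_nonneg_left h1 hg.le
    have h7 := mul_le_mul_of_nonneg_left (mul_le_mul_of_nonneg_left h2 hg.le)
      (show 0 ≤ η ^ 2 / 2 by positivity)
    rw [e1, e2]
    simp only [W]
    linarith
  have ip : Integrable fun x => W univ (x + v) := (hWi univ).comp_add_right v
  have im : Integrable fun x => W univ (x - v) := by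
    simpa only [sub_eq_add_neg] using (hWi univ).comp_add_right (-v)
  have jp : ∫ x, W univ (x + v) = Z := integral_add_right_eq_self (fun x => W univ x) v
  have jm : ∫ x, W univ (x - v) = Z := by
    simpa only [sub_eq_add_neg] using integral_add_right_eq_self (fun x => W univ x) (-v)
  have i1 : Integrable fun x => (10 + 1 / 20) * (W univ (x + v) + W univ (x - v)) :=
    (ip.add im).const_mul _
  have i2 : Integrable fun x => (1 - η ^ 2 / 2) * W univ x := (hWi univ).const_mul _
  have i3 : Integrable fun x => 20 * ((1 - η ^ 2 / 2) * W univ x - E x) :=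
    (i2.sub hEi).const_mul _
  have key : ∫ x, |W univ (x + v) - W univ (x - v)| ≤ Z / 5 := by
    calc ∫ x, |W univ (x + v) - W univ (x - v)|
        ≤ ∫ x, ((10 + 1 / 20) * (W univ (x + v) + W univ (x - v))
            - 20 * ((1 - η ^ 2 / 2) * W univ x - E x)) := by
          refine integral_mono (ip.sub im).abs (i1.sub i3) fun x => ?_
          have h1 := abs_sq_sub_sq_le (φ (x + v)) (φ (x - v))
          have h2 := hover x
          simp only [hφ2 (x + v), hφ2 (x - v)]
          linarith
      _ = (10 + 1 / 20) * (Z + Z) - 20 * ((1 - η ^ 2 / 2) * Z - ∫ x, E x) := by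
          rw [integral_sub i1 i3, integral_const_mul, integral_const_mul, integral_add ip im,
            integral_sub i2 hEi, integral_const_mul, jp, jm]
      _ ≤ Z / 5 := by
          have := mul_le_mul_of_nonneg_right hδ hZpos.le
          nlinarith
  simp only [← sub_div, abs_div, abs_of_pos hZpos]
  rw [integral_div, div_le_iff₀ hZpos]
  linarith

end Crest.Agent.R239
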