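import Mathlib

/-!
# The max/min splitting lemma with triangular offsets
-/

set_option autoImplicit false

namespace Crest.Agent.R239

open Finset MeasureTheory

theorem abs_max_min_le (a b c e : ℝ) :
    |max a b - max c e| + |min a b - min c e| ≤ |a - c| + |b - e| := by
  have h1 := le_abs_self (a - c)
  have h2 := neg_abs_le (a - c)
  have h3 := le_abs_self (b - e)
  have h4 := neg_abs_le (b - e)
  rcases le_total a b with h | h <;> rcases le_total c e with h' | h' <;>
    simp only [max_eq_left, max_eq_right, min_eq_left, min_eq_right, h, h'] <;>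
    rcases abs_cases (a - c) with k1 | k1 <;> rcases abs_cases (b - e) with k2 | k2 <;>
    first
      | linarith
      | (rcases abs_cases (b - c) with k3 | k3 <;> rcases abs_cases (a - e) with k4 | k4 <;>
          linarith)

variable {N : ℕ}

theorem split_lemma (u : ℕ → Fin N → ℝ) (O : ℕ → (Fin N → ℝ) →ₗ[ℝ] ℝ)
    (hO : ∀ i j, j ≤ i → O j (u i) = 0) (m : ℕ) :
    ∀ (ι : Type) [Fintype ι] (p : ι → (Fin N → ℝ) → ℝ) (K : ι → Set (Fin N → ℝ)),
      (∀ i x, 0 ≤ p i x) → (∀ i, Integrable (p i)) → ∑ i, ∫ x, p i x = 1 →
      (∀ i, Convex ℝ (K i)) → (∀ i, ∀ x ∈ K i, -x ∈ K i) → (∀ i x, p i x ≠ 0 → x ∈ K i) →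
      (∀ j < m, ∑ i, ∫ x, |p i (x + u j) - p i (x - u j)| ≤ 1 / 5) →
      (∀ i, ∀ j < m, ∀ x ∈ K i, |O j x| ≤ 1 / 5) →
      ∃ (s : ℕ → ℝ) (y : ι → Fin N → ℝ), (∀ i, ∫ x, p i x ≠ 0 → y i ∈ K i) ∧
        ∑ i, (∫ x, p i x) • y i = ∑ j ∈ range m, s j • u j ∧
        ∀ j < m, |s j + O j (∑ l ∈ range m, s l • u l)| = 1 / 3 := by
  induction m with
  | zero =>
    intro ι _ p K h0 hint hsum hconv hsymm hsupp _ _
    refine ⟨0, 0, ?_, by simp, by simp⟩
    intro i hi
    have : ∃ x, p i x ≠ 0 := by
      by_contra hcon
      push Not at hcon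
      apply hi
      simp [hcon]
    obtain ⟨x, hx⟩ := this
    have h1 := hsupp i x hx
    have h2 := hconv i h1 (hsymm i x h1) (a := 1 / 2) (b := 1 / 2) (by norm_num) (by norm_num)
      (by norm_num)
    simpa using h2
  | succ m ih =>
    intro ι _ p K h0 hint hsum hconv hsymm hsupp htv hoff
    set v := u m with hv
    have hp : ∀ i (w : Fin N → ℝ), Integrable (fun x => p i (x + w)) := fun i w =>
      (hint i).comp_add_right w
    have hm : ∀ i (w : Fin N → ℝ), Integrable (fun x => p i (x - w)) := fun i w => by
      simpa only [sub_eq_add_neg] using hp i (-w)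
    have ip : ∀ i (w : Fin N → ℝ), ∫ x, p i (x + w) = ∫ x, p i x := fun i w =>
      integral_add_right_eq_self (fun x => p i x) w
    have im : ∀ i (w : Fin N → ℝ), ∫ x, p i (x - w) = ∫ x, p i x := fun i w => by
      simpa only [sub_eq_add_neg] using ip i (-w)
    let p' : ι × Bool → (Fin N → ℝ) → ℝ := fun i x =>
      if i.2 then min (p i.1 (x + v)) (p i.1 (x - v)) / 2
      else max (p i.1 (x + v)) (p i.1 (x - v)) / 2
    let K' : ι × Bool → Set (Fin N → ℝ) := fun i =>
      if i.2 then {x | x + v ∈ K i.1 ∧ x - v ∈ K i.1}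
      else {x | ∃ t : ℝ, |t| ≤ 1 ∧ x + t • v ∈ K i.1}
    have hpt : ∀ i x, p' (i, true) x = min (p i (x + v)) (p i (x - v)) / 2 := fun i x => rfl
    have hpf : ∀ i x, p' (i, false) x = max (p i (x + v)) (p i (x - v)) / 2 := fun i x => rfl
    have hKt : ∀ i x, x ∈ K' (i, true) ↔ x + v ∈ K i ∧ x - v ∈ K i := fun i x => Iff.rfl
    have hKf : ∀ i x, x ∈ K' (i, false) ↔ ∃ t : ℝ, |t| ≤ 1 ∧ x + t • v ∈ K i :=
      fun i x => Iff.rfl
    have h0' : ∀ i x, 0 ≤ p' i x := by
      rintro ⟨i, _ | _⟩ x
      · rw [hpf]; exact div_nonneg (le_max_of_le_left (h0 _ _)) zero_le_two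
      · rw [hpt]; exact div_nonneg (le_min (h0 _ _) (h0 _ _)) zero_le_two
    have hint' : ∀ i, Integrable (p' i) := by
      rintro ⟨i, _ | _⟩
      · exact ((hp i v).sup (hm i v)).div_const 2
      · exact ((hp i v).inf (hm i v)).div_const 2
    have hw : ∀ i, (∫ x, p' (i, true) x) + ∫ x, p' (i, false) x = ∫ x, p i x := by
      intro i
      rw [← integral_add (hint' _) (hint' _)]
      have : (fun x => p' (i, true) x + p' (i, false) x)
          = fun x => (p i (x + v) + p i (x - v)) / 2 := by
        funext x
        rw [hpt, hpf, ← add_div, min_add_max]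
      rw [this, integral_div, integral_add (hp i v) (hm i v), ip, im]
      ring
    have hwt : ∀ i, ∫ x, p' (i, true) x
        = (∫ x, p i x) / 2 - (∫ x, |p i (x + v) - p i (x - v)|) / 4 := by
      intro i
      have : (fun x => p' (i, true) x) = fun x =>
          (p i (x + v) + p i (x - v)) / 4 - |p i (x + v) - p i (x - v)| / 4 := by
        funext x
        rw [hpt]
        rcases le_total (p i (x + v)) (p i (x - v)) with h | h
        · rw [min_eq_left h, abs_of_nonpos (by linarith)]; ring
        · rw [min_eq_right h, abs_of_nonneg (by linarith)]; ring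
      have i1 : Integrable fun x => (p i (x + v) + p i (x - v)) / 4 :=
        ((hp i v).add (hm i v)).div_const 4
      have i2 : Integrable fun x => |p i (x + v) - p i (x - v)| / 4 :=
        ((hp i v).sub (hm i v)).abs.div_const 4
      rw [this, integral_sub i1 i2, integral_div, integral_div,
        integral_add (hp i v) (hm i v), ip, im]
      ring
    have hsum' : ∑ i, ∫ x, p' i x = 1 := by
      rw [Fintype.sum_prod_type, ← hsum]
      exact sum_congr rfl fun i _ => by rw [Fintype.sum_bool, hw]
    have hseg : ∀ i x (t : ℝ), |t| ≤ 1 → x ∈ K' (i, true) → x + t • v ∈ K i := by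
      intro i x t ht hx
      rw [hKt] at hx
      have ht' := abs_le.mp ht
      have h2 := hconv i hx.1 hx.2 (a := (1 + t) / 2) (b := (1 - t) / 2) (by linarith)
        (by linarith) (by ring)
      convert h2 using 1
      funext l
      simp only [Pi.add_apply, Pi.smul_apply, Pi.sub_apply, smul_eq_mul]
      ring
    have hconv' : ∀ i, Convex ℝ (K' i) := by
      rintro ⟨i, _ | _⟩
      · intro x hx y hy a b ha hb hab
        rw [hKf] at hx hy ⊢
        obtain ⟨t1, ht1, hx⟩ := hx
        obtain ⟨t2, ht2, hy⟩ := hy
        refine ⟨a * t1 + b * t2, ?_, ?_⟩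
        · have e1 := abs_le.mp ht1
          have e2 := abs_le.mp ht2
          rw [abs_le]
          constructor <;> nlinarith
        · convert hconv i hx hy ha hb hab using 1
          funext l
          simp only [Pi.add_apply, Pi.smul_apply, smul_eq_mul]
          ring
      · intro x hx y hy a b ha hb hab
        rw [hKt] at hx hy ⊢
        have hb' : b = 1 - a := by linarith
        constructor
        · convert hconv i hx.1 hy.1 ha hb hab using 1
          funext l
          simp only [Pi.add_apply, Pi.smul_apply, smul_eq_mul, hb']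
          ring
        · convert hconv i hx.2 hy.2 ha hb hab using 1
          funext l
          simp only [Pi.add_apply, Pi.smul_apply, Pi.sub_apply, smul_eq_mul, hb']
          ring
    have hsymm' : ∀ i, ∀ x ∈ K' i, -x ∈ K' i := by
      rintro ⟨i, _ | _⟩ x hx
      · rw [hKf] at hx ⊢
        obtain ⟨t, ht, hx⟩ := hx
        refine ⟨-t, by rwa [abs_neg], ?_⟩
        convert hsymm i _ hx using 1
        rw [neg_smul]; abel
      · rw [hKt] at hx ⊢
        constructor
        · convert hsymm i _ hx.2 using 1
          abel
        · convert hsymm i _ hx.1 using 1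
          abel
    have hsupp' : ∀ i x, p' i x ≠ 0 → x ∈ K' i := by
      rintro ⟨i, _ | _⟩ x hx
      · rw [hKf]
        rw [hpf] at hx
        by_cases h1 : p i (x + v) = 0
        · refine ⟨-1, by simp, ?_⟩
          have h2 : p i (x - v) ≠ 0 := by
            intro h2
            apply hx
            rw [h1, h2]; simp
          simpa [sub_eq_add_neg] using hsupp i _ h2
        · exact ⟨1, by simp, by simpa using hsupp i _ h1⟩
      · rw [hKt]
        rw [hpt] at hx
        constructor
        · refine hsupp i _ fun h1 => hx ?_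
          rw [h1, min_eq_left (h0 _ _)]; simp
        · refine hsupp i _ fun h1 => hx ?_
          rw [h1, min_eq_right (h0 _ _)]; simp
    have htv' : ∀ j < m, ∑ i, ∫ x, |p' i (x + u j) - p' i (x - u j)| ≤ 1 / 5 := by
      intro j hj
      refine le_trans ?_ (htv j (by omega))
      rw [Fintype.sum_prod_type]
      refine sum_le_sum fun i _ => ?_
      rw [Fintype.sum_bool]
      have hI : ∀ b, Integrable fun x => |p' (i, b) (x + u j) - p' (i, b) (x - u j)| := by
        intro b
        have h1 := (hint' (i, b)).comp_add_right (u j)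
        have h2 : Integrable fun x => p' (i, b) (x - u j) := by
          simpa only [sub_eq_add_neg] using (hint' (i, b)).comp_add_right (-u j)
        exact (h1.sub h2).abs
      let F : (Fin N → ℝ) → ℝ := fun x => |p i (x + u j) - p i (x - u j)|
      have hF : Integrable F := ((hp i _).sub (hm i _)).abs
      rw [← integral_add (hI true) (hI false)]
      calc ∫ x, (|p' (i, true) (x + u j) - p' (i, true) (x - u j)|
              + |p' (i, false) (x + u j) - p' (i, false) (x - u j)|)
          ≤ ∫ x, (F (x + v) + F (x + -v)) / 2 := by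
            refine integral_mono ((hI true).add (hI false))
              (((hF.comp_add_right v).add (hF.comp_add_right (-v))).div_const 2) fun x => ?_
            simp only [hpt, hpf, F]
            have e1 : x + v + u j = x + u j + v := by abel
            have e2 : x + v - u j = x - u j + v := by abel
            have e3 : x + -v + u j = x + u j - v := by abel
            have e4 : x + -v - u j = x - u j - v := by abel
            rw [e1, e2, e3, e4, ← sub_div, ← sub_div, abs_div, abs_div, abs_two]
            have := abs_max_min_le (p i (x + u j + v)) (p i (x + u j - v))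
              (p i (x - u j + v)) (p i (x - u j - v))
            linarith
        _ = ∫ x, F x := by
            rw [integral_div, integral_add (hF.comp_add_right v) (hF.comp_add_right (-v)),
              integral_add_right_eq_self F v, integral_add_right_eq_self F (-v)]
            ring
    have hoffall : ∀ i, ∀ j < m + 1, ∀ x ∈ K' i, |O j x| ≤ 1 / 5 := by
      rintro ⟨i, _ | _⟩ j hj x hx
      · rw [hKf] at hx
        obtain ⟨t, _, hx⟩ := hx
        have := hoff i j hj _ hx
        rwa [map_add, map_smul, hO m j (by omega), smul_zero, add_zero] at this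
      · rw [hKt] at hx
        have := hoff i j hj _ hx.1
        rwa [map_add, hO m j (by omega), add_zero] at this
    obtain ⟨s', y', hy', hsum'', hs'⟩ := ih (ι × Bool) p' K' h0' hint' hsum' hconv' hsymm' hsupp'
      htv' (fun i j hj => hoffall i j (by omega))
    set w' : ι × Bool → ℝ := fun i => ∫ x, p' i x with hw'
    have hw'0 : ∀ i, 0 ≤ w' i := fun i => integral_nonneg (h0' i)
    set g' := ∑ j ∈ range m, s' j • u j with hg'
    have hT : ∀ i, ∃ t : ℝ, |t| ≤ 1 ∧ (w' (i, false) ≠ 0 → y' (i, false) + t • v ∈ K i) := by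
      intro i
      by_cases h : w' (i, false) = 0
      · exact ⟨0, by simp, fun h' => absurd h h'⟩
      · obtain ⟨t, ht, hx⟩ := (hKf _ _).mp (hy' (i, false) h)
        exact ⟨t, ht, fun _ => hx⟩
    choose t ht1 ht2 using hT
    set β := ∑ i, w' (i, true) with hβ
    set γ := ∑ i, w' (i, false) with hγ
    have hβγ : β + γ = 1 := by
      rw [hβ, hγ, ← sum_add_distrib, ← hsum]
      exact sum_congr rfl fun i _ => hw i
    have hβ1 : 9 / 20 ≤ β := by
      have : β = (∑ i, ∫ x, p i x) / 2 - (∑ i, ∫ x, |p i (x + v) - p i (x - v)|) / 4 := by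
        rw [hβ, sum_div, sum_div, ← sum_sub_distrib]
        exact sum_congr rfl fun i _ => hwt i
      have h2 := htv m (by omega)
      rw [this, hsum]
      linarith
    set a := ∑ i, w' (i, false) * t i with ha
    have ha1 : |a| ≤ γ := by
      refine (abs_sum_le_sum_abs _ _).trans (sum_le_sum fun i _ => ?_)
      rw [abs_mul, abs_of_nonneg (hw'0 _)]
      exact mul_le_of_le_one_right (hw'0 _) (ht1 i)
    have hO1 : |O m g'| ≤ 1 / 5 := by
      rw [← hsum'', map_sum]
      refine (abs_sum_le_sum_abs _ _).trans ?_
      calc ∑ i, |O m (w' i • y' i)| ≤ ∑ i, w' i * (1 / 5) := by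
            refine sum_le_sum fun i _ => ?_
            rw [map_smul, smul_eq_mul, abs_mul, abs_of_nonneg (hw'0 _)]
            by_cases h : w' i = 0
            · simp [h]
            · exact mul_le_mul_of_nonneg_left (hoffall i m (by omega) _ (hy' i h)) (hw'0 i)
        _ = 1 / 5 := by rw [← sum_mul, hsum']; ring
    have hσ : ∃ σ : ℝ, |σ| ≤ 1 ∧ |a + β * σ + O m g'| = 1 / 3 := by
      have hβ0 : 0 < β := by linarith
      have e1 := abs_le.mp ha1
      have e2 := abs_le.mp hO1
      rcases le_total 0 (a + O m g') with h | h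
      · refine ⟨(1 / 3 - (a + O m g')) / β, ?_, ?_⟩
        · rw [abs_le, le_div_iff₀ hβ0, div_le_iff₀ hβ0]
          constructor <;> linarith
        · rw [mul_div_cancel₀ _ hβ0.ne']
          have : a + (1 / 3 - (a + O m g')) + O m g' = 1 / 3 := by ring
          rw [this]; norm_num
      · refine ⟨(-1 / 3 - (a + O m g')) / β, ?_, ?_⟩
        · rw [abs_le, le_div_iff₀ hβ0, div_le_iff₀ hβ0]
          constructor <;> linarith
        · rw [mul_div_cancel₀ _ hβ0.ne']
          have : a + (-1 / 3 - (a + O m g')) + O m g' = -(1 / 3) := by ring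
          rw [this, abs_neg]; norm_num
    obtain ⟨σ, hσ1, hσ2⟩ := hσ
    let Y : ι → Fin N → ℝ := fun i =>
      w' (i, true) • (y' (i, true) + σ • v) + w' (i, false) • (y' (i, false) + t i • v)
    have hwi : ∀ i, ∫ x, p i x = w' (i, true) + w' (i, false) := fun i => (hw i).symm
    let s : ℕ → ℝ := Function.update s' m (a + β * σ)
    have hsg : ∑ j ∈ range (m + 1), s j • u j = g' + (a + β * σ) • v := by
      rw [sum_range_succ]
      congr 1
      · refine sum_congr rfl fun j hj => ?_
        simp only [s]
        rw [Function.update_of_ne (by have := mem_range.mp hj; omega)]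
      · simp [s, hv]
    refine ⟨s, fun i => (∫ x, p i x)⁻¹ • Y i, ?_, ?_, ?_⟩
    · intro i hi
      beta_reduce
      rw [hwi] at hi ⊢
      have hpos : 0 < w' (i, true) + w' (i, false) :=
        lt_of_le_of_ne (add_nonneg (hw'0 _) (hw'0 _)) (Ne.symm hi)
      simp only [Y]
      by_cases h1 : w' (i, true) = 0
      · have h2 : w' (i, false) ≠ 0 := by
          intro h2; apply hi; rw [h1, h2]; simp
        rw [h1, zero_smul, zero_add, zero_add, smul_smul, inv_mul_cancel₀ h2, one_smul]
        exact ht2 i h2
      · have hA := hseg i _ σ hσ1 (hy' (i, true) h1)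
        by_cases h2 : w' (i, false) = 0
        · rw [h2, zero_smul, add_zero, add_zero, smul_smul, inv_mul_cancel₀ h1, one_smul]
          exact hA
        · have hB := ht2 i h2
          rw [smul_add, smul_smul, smul_smul]
          refine hconv i hA hB (mul_nonneg (inv_nonneg.mpr hpos.le) (hw'0 _))
            (mul_nonneg (inv_nonneg.mpr hpos.le) (hw'0 _)) ?_
          rw [← mul_add, inv_mul_cancel₀ hi]
    · have e1 : ∀ i, (∫ x, p i x) • (∫ x, p i x)⁻¹ • Y i = Y i := by
        intro i
        by_cases hi : ∫ x, p i x = 0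
        · have h1 := hw'0 (i, true)
          have h2 := hw'0 (i, false)
          have h3 := hwi i
          have h4 : w' (i, true) = 0 := by linarith
          have h5 : w' (i, false) = 0 := by linarith
          simp [Y, h4, h5]
        · rw [smul_smul, mul_inv_cancel₀ hi, one_smul]
      simp only [e1]
      rw [hsg, ← hsum'', Fintype.sum_prod_type, hβ, ha, sum_mul, ← sum_add_distrib, sum_smul,
        ← sum_add_distrib]
      refine sum_congr rfl fun i _ => ?_
      rw [Fintype.sum_bool]
      simp only [Y]
      funext l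
      simp only [Pi.add_apply, Pi.smul_apply, smul_eq_mul]
      ring
    · intro j hj
      rw [hsg, map_add, map_smul, hO m j (by omega), smul_zero, add_zero]
      by_cases hjm : j = m
      · subst hjm
        simpa [s] using hσ2
      · simp only [s]
        rw [Function.update_of_ne hjm]
        exact hs' j (by omega)

end Crest.Agent.R239
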