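import Crest.Agent.R239.Defs

/-!
# The damped linear system driven by the vectors and its energy decomposition
-/

set_option autoImplicit false

namespace Crest.Agent.R239

open Finset
open scoped RealInnerProductSpace

section Lev

variable {n : ℕ}

/-- Leverage score of the coordinate `j` for the subspace `V`. -/
noncomputable def lev (V : Submodule ℝ (EuclideanSpace ℝ (Fin n))) (j : Fin n) : ℝ :=
  ∑ i, ((stdOrthonormalBasis ℝ V i : V) : EuclideanSpace ℝ (Fin n)) j ^ 2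

theorem lev_nonneg (V : Submodule ℝ (EuclideanSpace ℝ (Fin n))) (j : Fin n) : 0 ≤ lev V j :=
  sum_nonneg fun _ _ => sq_nonneg _

theorem sq_le_lev (V : Submodule ℝ (EuclideanSpace ℝ (Fin n))) (j : Fin n)
    {w : EuclideanSpace ℝ (Fin n)} (hw : w ∈ V) : w j ^ 2 ≤ lev V j * ‖w‖ ^ 2 := by
  set b := stdOrthonormalBasis ℝ V with hb
  have h1 := b.sum_repr' ⟨w, hw⟩
  have h2 := b.sum_sq_inner_right ⟨w, hw⟩
  have h3 : w j = ∑ i, ((b i : V) : EuclideanSpace ℝ (Fin n)) j * ⟪b i, (⟨w, hw⟩ : V)⟫ := by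
    have := congrArg (fun z : V => (z : EuclideanSpace ℝ (Fin n)) j) h1
    simp only [AddSubmonoidClass.coe_finsetSum, SetLike.val_smul, WithLp.ofLp_sum,
      Finset.sum_apply, PiLp.smul_apply, smul_eq_mul, WithLp.ofLp_smul, Pi.smul_apply] at this
    rw [← this]
    exact sum_congr rfl fun i _ => mul_comm _ _
  have h4 : ‖w‖ = ‖(⟨w, hw⟩ : V)‖ := rfl
  rw [h3, h4, ← h2]
  exact sum_mul_sq_le_sq_mul_sq _ _ _

theorem sum_lev (V : Submodule ℝ (EuclideanSpace ℝ (Fin n))) :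
    ∑ j, lev V j = Module.finrank ℝ V := by
  unfold lev
  rw [sum_comm]
  have : ∀ i, ∑ j, ((stdOrthonormalBasis ℝ V i : V) : EuclideanSpace ℝ (Fin n)) j ^ 2 = 1 := by
    intro i
    rw [← EuclideanSpace.real_norm_sq_eq]
    have := (stdOrthonormalBasis ℝ V).orthonormal.1 i
    rw [Submodule.coe_norm] at this
    rw [this]; norm_num
  simp [this]

theorem exists_lev (V : Submodule ℝ (EuclideanSpace ℝ (Fin n))) (j : Fin n) :
    ∃ w ∈ V, w j = lev V j ∧ ‖w‖ ^ 2 = lev V j := by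
  set b := stdOrthonormalBasis ℝ V with hb
  let z : V := ∑ i, ((b i : V) : EuclideanSpace ℝ (Fin n)) j • b i
  refine ⟨z, z.2, ?_, ?_⟩
  · simp only [z, AddSubmonoidClass.coe_finsetSum, SetLike.val_smul, WithLp.ofLp_sum,
      Finset.sum_apply, smul_eq_mul, WithLp.ofLp_smul, Pi.smul_apply, lev, sq]
    rfl
  · rw [← Submodule.coe_norm, ← b.sum_sq_inner_right z]
    refine sum_congr rfl fun i _ => ?_
    rw [b.orthonormal.inner_right_fintype]

theorem lev_le_lev (V V' : Submodule ℝ (EuclideanSpace ℝ (Fin n))) (j : Fin n)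
    (h : ∀ w ∈ V, ∃ w' ∈ V', w' j = w j ∧ ‖w'‖ ^ 2 ≤ ‖w‖ ^ 2) : lev V j ≤ lev V' j := by
  obtain ⟨w, hw, h1, h2⟩ := exists_lev V j
  obtain ⟨w', hw', h3, h4⟩ := h w hw
  have h5 := sq_le_lev V' j hw'
  rw [h3, h1] at h5
  rw [h2] at h4
  have h6 := lev_nonneg V j
  have h7 := lev_nonneg V' j
  rcases h6.eq_or_lt with h8 | h8
  · rw [← h8]; exact h7
  · have := mul_le_mul_of_nonneg_left h4 h7
    nlinarith

end Lev

variable {E : Type*} [NormedAddCommGroup E] [InnerProductSpace ℝ E]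

/-- The damping map `x ↦ x - c ⟨w, x⟩ w`. -/
noncomputable def damp (c : ℝ) (w : E) : E →ₗ[ℝ] E where
  toFun x := x - (c * ⟪w, x⟫) • w
  map_add' x y := by rw [inner_add_right, mul_add, add_smul]; abel
  map_smul' a x := by
    rw [real_inner_smul_right, RingHom.id_apply, smul_sub, smul_smul]
    congr 2
    ring

theorem damp_apply (c : ℝ) (w x : E) : damp c w x = x - (c * ⟪w, x⟫) • w := rfl

/-- The energy loss coefficient. -/
noncomputable def loss (c : ℝ) (w : E) : ℝ := 2 * c - c ^ 2 * ‖w‖ ^ 2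

theorem le_loss {c : ℝ} (hc0 : 0 < c) (hc1 : c ≤ 1) {w : E} (hw : ‖w‖ ≤ 1) : c ≤ loss c w := by
  have h1 : ‖w‖ ^ 2 ≤ 1 := pow_le_one₀ (norm_nonneg _) hw
  have h2 : c ^ 2 * ‖w‖ ^ 2 ≤ c ^ 2 := mul_le_of_le_one_right (sq_nonneg _) h1
  unfold loss
  nlinarith

theorem norm_damp (c : ℝ) (w x : E) :
    ‖damp c w x‖ ^ 2 = ‖x‖ ^ 2 - loss c w * ⟪w, x⟫ ^ 2 := by
  rw [damp_apply, norm_sub_sq_real, real_inner_smul_right, norm_smul, mul_pow, Real.norm_eq_abs,
    sq_abs, real_inner_comm w x, loss]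
  ring

theorem inner_damp (c : ℝ) (w x y : E) : ⟪y, damp c w x⟫ = ⟪damp c w y, x⟫ := by
  rw [damp_apply, damp_apply, inner_sub_right, inner_sub_left, real_inner_smul_right,
    real_inner_smul_left, real_inner_comm w y]
  ring

/-- The response at time `k` to a unit impulse at step `j`. -/
noncomputable def resp (c : ℝ) (v : ℕ → E) : ℕ → ℕ → E
  | 0, _ => 0
  | k + 1, j => damp c (v k) (resp c v k j) + if j = k then v k else 0

theorem resp_succ (c : ℝ) (v : ℕ → E) (k j : ℕ) :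
    resp c v (k + 1) j = damp c (v k) (resp c v k j) + if j = k then v k else 0 := rfl

theorem resp_eq_zero (c : ℝ) (v : ℕ → E) {k j : ℕ} (h : k ≤ j) : resp c v k j = 0 := by
  induction k with
  | zero => rfl
  | succ k ih => rw [resp_succ, ih (by omega), map_zero, if_neg (by omega), add_zero]

theorem resp_self (c : ℝ) (v : ℕ → E) (j : ℕ) : resp c v (j + 1) j = v j := by
  rw [resp_succ, resp_eq_zero c v le_rfl, map_zero, if_pos rfl, zero_add]

theorem resp_succ_of_lt (c : ℝ) (v : ℕ → E) {k j : ℕ} (h : j < k) :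
    resp c v (k + 1) j = damp c (v k) (resp c v k j) := by
  rw [resp_succ, if_neg (by omega), add_zero]

theorem gram_le {c : ℝ} (hc0 : 0 < c) (hc1 : c ≤ 1) (v : ℕ → E) (hv : ∀ k, ‖v k‖ ≤ 1) (n k : ℕ) :
    ∀ y : E, ∑ j : Fin n, ⟪y, resp c v k j⟫ ^ 2 ≤ ‖y‖ ^ 2 / c := by
  induction k with
  | zero => intro y; simp only [resp, inner_zero_right]; simp; positivity
  | succ k ih =>
    intro y
    have e : ∀ j : Fin n, ⟪y, resp c v (k + 1) j⟫ ^ 2 = ⟪damp c (v k) y, resp c v k j⟫ ^ 2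
        + if (j : ℕ) = k then ⟪y, v k⟫ ^ 2 else 0 := by
      intro j
      by_cases h : (j : ℕ) = k
      · rw [h, resp_self, resp_eq_zero c v le_rfl]; simp
      · rw [resp_succ, if_neg h, if_neg h, add_zero, add_zero, inner_damp]
    simp only [e, sum_add_distrib]
    have h1 : ∑ j : Fin n, (if (j : ℕ) = k then ⟪y, v k⟫ ^ 2 else 0) ≤ ⟪y, v k⟫ ^ 2 := by
      by_cases hk : k < n
      · rw [sum_eq_single (⟨k, hk⟩ : Fin n)]
        · simp
        · intro j _ hj
          rw [if_neg fun h => hj (Fin.ext h)]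
        · simp
      · rw [sum_eq_zero fun j _ => if_neg (by have := j.2; omega)]
        positivity
    have h2 := ih (damp c (v k) y)
    rw [norm_damp] at h2
    have h3 := le_loss hc0 hc1 (hv k)
    have h4 : (‖y‖ ^ 2 - loss c (v k) * ⟪v k, y⟫ ^ 2) / c + ⟪y, v k⟫ ^ 2 ≤ ‖y‖ ^ 2 / c := by
      rw [real_inner_comm (v k) y, div_add' _ _ _ hc0.ne']
      gcongr
      nlinarith [sq_nonneg ⟪v k, y⟫]
    linarith

/-- Contribution at time `k'` of the inputs before time `k`. -/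
noncomputable def state {n : ℕ} (c : ℝ) (v : ℕ → E) (g : Fin n → ℝ) (k' k : ℕ) : E :=
  ∑ j : Fin n, seg g 0 k j • resp c v k' j

theorem state_succ {n : ℕ} (c : ℝ) (v : ℕ → E) (g : Fin n → ℝ) {k' k : ℕ} (h : k ≤ k') :
    state c v g (k' + 1) k = damp c (v k') (state c v g k' k) := by
  unfold state
  rw [map_sum]
  refine sum_congr rfl fun j _ => ?_
  rw [map_smul]
  by_cases hj : (j : ℕ) < k
  · rw [resp_succ_of_lt c v (by omega)]
  · simp [seg, hj]

theorem energy {n : ℕ} (c : ℝ) (v : ℕ → E) (g : Fin n → ℝ) {k k' : ℕ} (h : k ≤ k') :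
    ‖state c v g k k‖ ^ 2 = ∑ m ∈ Ico k k', loss c (v m) * ⟪v m, state c v g m k⟫ ^ 2
      + ‖state c v g k' k‖ ^ 2 := by
  induction k', h using Nat.le_induction with
  | base => simp
  | succ k' hk ih => rw [sum_Ico_succ_top hk, state_succ c v g hk, norm_damp, ih]; ring

theorem inner_state {n : ℕ} (c : ℝ) (v : ℕ → E) (g : Fin n → ℝ) (k' k : ℕ) (y : E) :
    ⟪y, state c v g k' k⟫ = seg (fun j : Fin n => ⟪y, resp c v k' j⟫) 0 k ⬝ᵥ g := by
  unfold state
  rw [inner_sum, dotProduct]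
  refine sum_congr rfl fun j _ => ?_
  rw [real_inner_smul_right]
  simp only [seg]
  split_ifs
  · ring
  · simp

theorem exists_pullback (c : ℝ) (v : ℕ → E) {k k' : ℕ} (h : k ≤ k') (y' : E) :
    ∃ y : E, ∀ j < k, ⟪y', resp c v k' j⟫ = ⟪y, resp c v k j⟫ := by
  induction k', h using Nat.le_induction generalizing y' with
  | base => exact ⟨y', fun _ _ => rfl⟩
  | succ k' hk ih =>
    obtain ⟨y, hy⟩ := ih (damp c (v k') y')
    exact ⟨y, fun j hj => by rw [resp_succ_of_lt c v (by omega), inner_damp, hy j hj]⟩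

/-- The observation map at time `k`. -/
noncomputable def obs (n : ℕ) (c : ℝ) (v : ℕ → E) (k : ℕ) : E →ₗ[ℝ] EuclideanSpace ℝ (Fin n) where
  toFun y := WithLp.toLp 2 fun j : Fin n => ⟪y, resp c v k j⟫
  map_add' x y := by ext j; simp [inner_add_left]
  map_smul' a x := by ext j; simp [real_inner_smul_left]

theorem obs_apply (n : ℕ) (c : ℝ) (v : ℕ → E) (k : ℕ) (y : E) (j : Fin n) :
    obs n c v k y j = ⟪y, resp c v k j⟫ := rfl

/-- Leverage of the column `j` at time `k`. -/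
noncomputable def levT (n : ℕ) (c : ℝ) (v : ℕ → E) (k j : ℕ) : ℝ :=
  if h : j < n then lev (LinearMap.range (obs n c v k)) ⟨j, h⟩ else 0

theorem levT_nonneg (n : ℕ) (c : ℝ) (v : ℕ → E) (k j : ℕ) : 0 ≤ levT n c v k j := by
  unfold levT
  split_ifs
  · exact lev_nonneg _ _
  · exact le_rfl

theorem levT_mono (n : ℕ) (c : ℝ) (v : ℕ → E) (k j : ℕ) (hj : j < k) :
    levT n c v (k + 1) j ≤ levT n c v k j := by
  unfold levT
  split_ifs with h
  · refine lev_le_lev _ _ _ ?_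
    rintro _ ⟨y, rfl⟩
    refine ⟨obs n c v k (damp c (v k) y), ⟨_, rfl⟩, ?_, ?_⟩
    · rw [obs_apply, obs_apply, resp_succ_of_lt c v hj, inner_damp]
    · rw [EuclideanSpace.real_norm_sq_eq, EuclideanSpace.real_norm_sq_eq]
      refine sum_le_sum fun i _ => ?_
      rw [obs_apply, obs_apply]
      by_cases hi : (i : ℕ) < k
      · rw [resp_succ_of_lt c v hi, inner_damp]
      · rw [resp_eq_zero c v (not_lt.mp hi), inner_zero_right]
        simpa using sq_nonneg _
  · exact le_rfl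

theorem sum_levT_le [FiniteDimensional ℝ E] (n : ℕ) (c : ℝ) (v : ℕ → E) (k l : ℕ) :
    ∑ j ∈ range l, levT n c v k j ≤ Module.finrank ℝ E := by
  have h1 : ∑ j ∈ range l, levT n c v k j ≤ ∑ j ∈ range n, levT n c v k j := by
    rw [← sum_filter_add_sum_filter_not (range l) (fun j => j < n)]
    rw [sum_eq_zero (s := (range l).filter fun j => ¬ j < n) (fun j hj => by
      unfold levT; rw [dif_neg (mem_filter.mp hj).2]), add_zero]
    exact sum_le_sum_of_subset_of_nonneg (fun j hj => mem_range.mpr (mem_filter.mp hj).2)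
      fun j _ _ => levT_nonneg _ _ _ _ _
  have h2 : ∑ j ∈ range n, levT n c v k j = ∑ j, lev (LinearMap.range (obs n c v k)) j := by
    rw [← Fin.sum_univ_eq_sum_range]
    exact sum_congr rfl fun j _ => by unfold levT; rw [dif_pos j.2]
  rw [h2, sum_lev] at h1
  exact h1.trans (by exact_mod_cast LinearMap.finrank_range_le _)

theorem dom_levT (n : ℕ) (c : ℝ) (v : ℕ → E) {k k' : ℕ} (h : k ≤ k') (y' : E) (j : Fin n)
    (hj : (j : ℕ) < k) :
    ⟪y', resp c v k' j⟫ ^ 2
      ≤ levT n c v k j * sm (fun i : Fin n => ⟪y', resp c v k' i⟫) 0 k := by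
  obtain ⟨y, hy⟩ := exists_pullback c v h y'
  have h1 := sq_le_lev (LinearMap.range (obs n c v k)) j (w := obs n c v k y) ⟨y, rfl⟩
  rw [obs_apply, ← hy j hj, EuclideanSpace.real_norm_sq_eq] at h1
  unfold levT
  rw [dif_pos j.2, sm_eq]
  convert h1 using 3 with i
  rw [obs_apply]
  simp only [seg]
  split_ifs with hi
  · rw [hy i hi.2]
  · rw [resp_eq_zero c v (by omega), inner_zero_right]

end Crest.Agent.R239
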