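import Crest.Agent.R239.Comb
import Crest.Agent.R239.System
import Crest.Agent.R239.Density
import Crest.Agent.R239.Split

/-!
# Assembly: signs with all prefix sums of Euclidean norm `O(√d)`
-/

set_option autoImplicit false

namespace Crest.Agent.R239

open Finset MeasureTheory
open scoped RealInnerProductSpace

variable {n d : ℕ}

/-- The time at which a row of the energy decomposition is read. -/
def rowTime (n d : ℕ) : Fin n ⊕ Fin d → ℕ
  | Sum.inl m => m
  | Sum.inr _ => n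

/-- The direction in which a row of the energy decomposition is read. -/
noncomputable def rowVec (n : ℕ) (c : ℝ) (v : ℕ → EuclideanSpace ℝ (Fin d)) :
    Fin n ⊕ Fin d → EuclideanSpace ℝ (Fin d)
  | Sum.inl m => Real.sqrt (loss c (v m)) • v m
  | Sum.inr i => EuclideanSpace.single i 1

/-- The rows of the energy decomposition. -/
noncomputable def row (n : ℕ) (c : ℝ) (v : ℕ → EuclideanSpace ℝ (Fin d)) (m : Fin n ⊕ Fin d) :
    Fin n → ℝ := fun j => ⟪rowVec n c v m, resp c v (rowTime n d m) j⟫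

theorem sum_inner_single_sq (x : EuclideanSpace ℝ (Fin d)) :
    ∑ i, ⟪EuclideanSpace.single i (1 : ℝ), x⟫ ^ 2 = ‖x‖ ^ 2 := by
  rw [EuclideanSpace.real_norm_sq_eq]
  exact sum_congr rfl fun i _ => by rw [EuclideanSpace.inner_single_left]; simp

theorem rows_energy {c : ℝ} (hc0 : 0 < c) (hc1 : c ≤ 1) (v : ℕ → EuclideanSpace ℝ (Fin d))
    (hv : ∀ k, ‖v k‖ ≤ 1) (g : Fin n → ℝ) {k : ℕ} (hk : k ≤ n) :
    ∑ m with k ≤ rowTime n d m, (seg (row n c v m) 0 k ⬝ᵥ g) ^ 2 = ‖state c v g k k‖ ^ 2 := by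
  have e : ∀ m, seg (row n c v m) 0 k ⬝ᵥ g
      = ⟪rowVec n c v m, state c v g (rowTime n d m) k⟫ := fun m => (inner_state _ _ _ _ _ _).symm
  simp only [e]
  rw [energy c v g hk, sum_filter, Fintype.sum_sum_type]
  congr 1
  · have e2 : ∀ m : Fin n, (if k ≤ rowTime n d (Sum.inl m) then
        ⟪rowVec n c v (Sum.inl m), state c v g (rowTime n d (Sum.inl m)) k⟫ ^ 2 else 0)
        = (fun m : ℕ => if k ≤ m then loss c (v m) * ⟪v m, state c v g m k⟫ ^ 2 else 0) m := by
      intro m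
      simp only [rowTime, rowVec]
      rw [real_inner_smul_left, mul_pow,
        Real.sq_sqrt (hc0.le.trans (le_loss hc0 hc1 (hv m)))]
    simp only [e2]
    rw [Fin.sum_univ_eq_sum_range
      (fun m : ℕ => if k ≤ m then loss c (v m) * ⟪v m, state c v g m k⟫ ^ 2 else 0) n,
      ← sum_filter]
    congr 1
    ext m
    simp only [mem_filter, mem_range, mem_Ico]
    omega
  · simp only [rowTime, rowVec, if_pos hk]
    exact sum_inner_single_sq _

theorem state_single (c : ℝ) (v : ℕ → EuclideanSpace ℝ (Fin d)) (j : Fin n) (k : ℕ) :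
    state c v (Pi.single j (1 : ℝ) : Fin n → ℝ) k k = resp c v k j := by
  unfold state
  rw [sum_eq_single j]
  · simp only [seg]
    split_ifs with h
    · simp
    · rw [resp_eq_zero c v (by omega)]; simp
  · intro i _ hi
    simp [seg, Pi.single_eq_of_ne hi]
  · simp

theorem row_col {c : ℝ} (hc0 : 0 < c) (hc1 : c ≤ 1) (v : ℕ → EuclideanSpace ℝ (Fin d))
    (hv : ∀ k, ‖v k‖ ≤ 1) (j : Fin n) : ∑ m, row n c v m j ^ 2 ≤ 1 := by
  have h := rows_energy hc0 hc1 v hv (Pi.single j (1 : ℝ) : Fin n → ℝ) (k := j + 1) j.2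
  rw [state_single, resp_self, sum_filter] at h
  have e : ∑ m, row n c v m j ^ 2 = ‖v j‖ ^ 2 := by
    rw [← h]
    refine sum_congr rfl fun m _ => ?_
    split_ifs with hm
    · simp [seg]
    · simp only [row]
      rw [resp_eq_zero c v (by omega)]; simp
  rw [e]
  exact pow_le_one₀ (norm_nonneg _) (hv j)

theorem row_alive {c : ℝ} (hc0 : 0 < c) (hc1 : c ≤ 1) (v : ℕ → EuclideanSpace ℝ (Fin d))
    (hv : ∀ k, ‖v k‖ ≤ 1) {k : ℕ} (hk : k ≤ n) :
    ∑ m with k ≤ rowTime n d m, sm (row n c v m) 0 k ≤ d / c := by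
  simp only [sm_eq]
  rw [sum_comm]
  have e : ∀ j : Fin n, ∑ m with k ≤ rowTime n d m, seg (row n c v m) 0 k j ^ 2
      = ∑ i, ⟪EuclideanSpace.single i (1 : ℝ), resp c v k j⟫ ^ 2 := by
    intro j
    have h := rows_energy hc0 hc1 v hv (Pi.single j (1 : ℝ) : Fin n → ℝ) hk
    rw [state_single] at h
    rw [sum_inner_single_sq, ← h]
    exact sum_congr rfl fun m _ => by simp
  simp only [e]
  rw [sum_comm]
  calc ∑ i : Fin d, ∑ j : Fin n, ⟪EuclideanSpace.single i (1 : ℝ), resp c v k j⟫ ^ 2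
      ≤ ∑ _i : Fin d, 1 / c := sum_le_sum fun i _ => by
        simpa using gram_le hc0 hc1 v hv n k (EuclideanSpace.single i (1 : ℝ))
    _ = d / c := by simp [div_eq_mul_inv]

theorem constraints {c : ℝ} (hc0 : 0 < c) (hc1 : c ≤ 1) (v : ℕ → EuclideanSpace ℝ (Fin d))
    (hv : ∀ k, ‖v k‖ ≤ 1) (n : ℕ) :
    ∃ (C : Type) (_ : Fintype C) (L : C → QF n), (∀ c, 0 ≤ L c) ∧ (∀ c, mass (L c) ≤ 2 ^ 21) ∧
      (∀ j, ∑ c, cost j (L c) ≤ 2 ^ 24) ∧
      ∀ (g : Fin n → ℝ) (τ : ℝ), 0 ≤ τ → (∀ c, qf g (L c) ≤ τ) → ∀ k ≤ n,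
        ‖state c v g k k‖ ^ 2 ≤ 1 + 2 * (d / c) + τ * (1 + 8 * d + 16 * (d / c)) := by
  obtain ⟨C, hC, L, h1, h2, h3, h4⟩ := comb (row n c v) (fun m k => k ≤ rowTime n d m)
    (fun m k h => by omega) (row_col hc0 hc1 v hv) (d / c) (fun k hk => row_alive hc0 hc1 v hv hk)
    (levT n c v) (levT_nonneg n c v) (levT_mono n c v) d
    (fun k => by simpa using sum_levT_le n c v k k)
    (fun m k hm _ j hj => dom_levT n c v hm _ j hj)
  refine ⟨C, hC, L, h1, h2, h3, fun g τ hτ hq k hk => ?_⟩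
  rw [← rows_energy hc0 hc1 v hv g hk]
  exact h4 g τ hτ hq k hk

theorem state_diag (c : ℝ) (v : ℕ → EuclideanSpace ℝ (Fin d)) (g : Fin n → ℝ) (k : ℕ) :
    state c v g k k = ∑ j : Fin n, g j • resp c v k j := by
  unfold state
  refine sum_congr rfl fun j _ => ?_
  simp only [seg]
  split_ifs with h
  · rfl
  · rw [resp_eq_zero c v (by omega)]; simp

theorem state_step (c : ℝ) (v : ℕ → EuclideanSpace ℝ (Fin d)) (g : Fin n → ℝ) {k : ℕ}
    (hk : k < n) :
    state c v g (k + 1) (k + 1) = damp c (v k) (state c v g k k) + g ⟨k, hk⟩ • v k := by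
  rw [state_diag, state_diag, map_sum]
  simp only [resp_succ, smul_add, sum_add_distrib, map_smul]
  congr 1
  rw [sum_eq_single (⟨k, hk⟩ : Fin n)]
  · simp
  · intro j _ hj
    rw [if_neg fun h => hj (Fin.ext h), smul_zero]
  · simp

/-- Dot product with a fixed vector, as a linear map. -/
def dotL (o : Fin n → ℝ) : (Fin n → ℝ) →ₗ[ℝ] ℝ where
  toFun g := o ⬝ᵥ g
  map_add' := dotProduct_add o
  map_smul' a g := by simp [dotProduct_smul]

theorem main_bound : ∃ B : ℝ, 1 ≤ B ∧ ∀ (d n : ℕ) (v : ℕ → EuclideanSpace ℝ (Fin d)),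
    1 ≤ d → (∀ k, ‖v k‖ ≤ 1) → ∃ z : ℕ → ℝ, (∀ j < n, |z j| = 1) ∧
      ∀ k ≤ n, ‖∑ j ∈ range k, z j • v j‖ ^ 2 ≤ B * d := by
  set c : ℝ := 1 / 125000000 with hc
  set η : ℝ := 1 / 500 with hη
  set τ : ℝ := 400 * 2 ^ 21 with hτ
  have hc0 : 0 < c := by norm_num [hc]
  have hc1 : c ≤ 1 := by norm_num [hc]
  have hη0 : 0 < η := by norm_num [hη]
  have hτ0 : 0 < τ := by norm_num [hτ]
  refine ⟨1500 ^ 2 * (1 + 2 / c + τ * (9 + 16 / c)), by norm_num [hc, hτ], ?_⟩
  intro d n v hd hv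
  obtain ⟨C, hC, L, h1, h2, h3, h4⟩ := constraints hc0 hc1 v hv n
  let o : ℕ → Fin n → ℝ := fun m j => -(c / η) * ⟪v m, resp c v m j⟫
  have hoo : ∀ m, o m ⬝ᵥ o m ≤ 1 / 500 := by
    intro m
    have h := gram_le hc0 hc1 v hv n m (v m)
    have e : o m ⬝ᵥ o m = (c / η) ^ 2 * ∑ j : Fin n, ⟪v m, resp c v m j⟫ ^ 2 := by
      rw [dotProduct, mul_sum]
      exact sum_congr rfl fun j _ => by simp only [o]; ring
    have h5 : ‖v m‖ ^ 2 / c ≤ 1 / c := by
      gcongr
      exact pow_le_one₀ (norm_nonneg _) (hv m)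
    rw [e]
    calc _ ≤ (c / η) ^ 2 * (1 / c) := by gcongr; exact h.trans h5
      _ = 1 / 500 := by norm_num [hc, hη]
  have hocol : ∀ j, ∑ m : Fin n, o m j ^ 2 ≤ 1 / 500 := by
    intro j
    have h := row_col (n := n) hc0 hc1 v hv j
    rw [Fintype.sum_sum_type] at h
    have h5 : 0 ≤ ∑ i : Fin d, row n c v (Sum.inr i) j ^ 2 := sum_nonneg fun _ _ => sq_nonneg _
    have h6 : ∑ m : Fin n, o m j ^ 2 ≤ ∑ m : Fin n, 1 / 500 * row n c v (Sum.inl m) j ^ 2 := by
      refine sum_le_sum fun m _ => ?_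
      simp only [o, row, rowTime, rowVec]
      have h7 := le_loss hc0 hc1 (hv m)
      rw [real_inner_smul_left, mul_pow, mul_pow, Real.sq_sqrt (hc0.le.trans h7), ← mul_assoc]
      refine mul_le_mul_of_nonneg_right ?_ (sq_nonneg _)
      have : (-(c / η)) ^ 2 = 1 / 500 * c := by norm_num [hc, hη]
      rw [this]
      exact mul_le_mul_of_nonneg_left h7 (by norm_num)
    rw [← mul_sum] at h6
    linarith
  let L' : C ⊕ Fin n → QF n := fun i =>
    match i with
    | Sum.inl i => τ⁻¹ • L i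
    | Sum.inr m => Finsupp.single (o m) 625
  have hL'0 : ∀ i, 0 ≤ L' i := by
    rintro (i | m)
    · exact qf_smul_nonneg (h1 i) (inv_nonneg.mpr hτ0.le)
    · exact qf_single_nonneg _ (by norm_num)
  have hL'm : ∀ i, mass (L' i) ≤ 1 / 400 := by
    rintro (i | m)
    · simp only [L', map_smul, smul_eq_mul]
      rw [inv_mul_le_iff₀ hτ0]
      refine (h2 i).trans ?_
      norm_num [hτ]
    · simp only [L', mass_single]
      have := pow_le_pow_left₀ (dot_self_nonneg _) (hoo m) 2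
      linarith
  have hL'c : ∀ j, ∑ i, cost j (L' i) ≤ 1 := by
    intro j
    rw [Fintype.sum_sum_type]
    simp only [L', map_smul, smul_eq_mul, cost_single]
    rw [← mul_sum]
    have h5 : τ⁻¹ * ∑ i, cost j (L i) ≤ 1 / 2 := by
      rw [inv_mul_le_iff₀ hτ0]
      refine (h3 j).trans ?_
      norm_num [hτ]
    have h6 : ∑ m : Fin n, 625 * ((o m ⬝ᵥ o m) * o m j ^ 2)
        ≤ ∑ m : Fin n, 625 / 500 * o m j ^ 2 := by
      refine sum_le_sum fun m _ => ?_
      have := mul_le_mul_of_nonneg_right (hoo m) (sq_nonneg (o m j))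
      linarith
    rw [← mul_sum (f := fun m : Fin n => o m j ^ 2)] at h6
    linarith [hocol j]
  obtain ⟨p, hp0, hpi, hp1, hpK, hptv⟩ := exists_density L' hL'0 hL'm 1 η hL'c
    (by norm_num [hη]) (by norm_num [hη])
  let u : ℕ → Fin n → ℝ := fun i => if h : i < n then Pi.single ⟨i, h⟩ η else 0
  let K : Set (Fin n → ℝ) := {g | ∀ i, qf g (L' i) ≤ 1}
  obtain ⟨s, y, hy, hsum, hs⟩ := split_lemma u (fun j => dotL (o j)) (by
      intro i j hij
      change o j ⬝ᵥ u i = 0
      simp only [u]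
      split_ifs with h
      · rw [dotProduct_single]
        simp only [o]
        rw [resp_eq_zero c v hij]
        simp
      · simp) n Unit (fun _ => p) (fun _ => K) (fun _ => hp0) (fun _ => hpi) (by simpa using hp1)
    (by
      intro _ x hx y hy a b ha hb hab i
      have h5 := qf_convex (hL'0 i) x y ha hb hab
      have h6 := mul_le_mul_of_nonneg_left (hx i) ha
      have h7 := mul_le_mul_of_nonneg_left (hy i) hb
      linarith)
    (fun _ x hx i => by rw [qf_neg]; exact hx i)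
    (fun _ x hx => hpK x hx)
    (by
      intro j hj
      simp only [u, dif_pos hj]
      simpa using hptv ⟨j, hj⟩)
    (by
      intro _ j hj x hx
      have h5 := hx (Sum.inr ⟨j, hj⟩)
      simp only [L', qf_single] at h5
      change |o j ⬝ᵥ x| ≤ 1 / 5
      refine abs_le_of_sq_le_sq' ?_ (by norm_num) |> abs_le.mpr
      nlinarith [sq_nonneg ((o j ⬝ᵥ x) ^ 2 - 1 / 25), sq_nonneg (o j ⬝ᵥ x)])
  set g := ∑ j ∈ range n, s j • u j with hg
  have hgK : g ∈ K := by
    have h5 := hy () (by rw [hp1]; norm_num)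
    rw [← hsum]
    simpa [hp1] using h5
  have hgc : ∀ (k : ℕ) (hk : k < n), g ⟨k, hk⟩ = s k * η := by
    intro k hk
    rw [hg, Finset.sum_apply, sum_eq_single k]
    · simp [u, hk]
    · intro j hj hjk
      have hj' := mem_range.mp hj
      simp only [u, dif_pos hj', Pi.smul_apply]
      rw [Pi.single_eq_of_ne (fun h => hjk (by simpa using (congrArg Fin.val h).symm)), smul_zero]
    · intro h
      exact absurd (mem_range.mpr hk) h
  refine ⟨fun j => 3 * (s j + o j ⬝ᵥ g), fun j hj => ?_, ?_⟩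
  · have h5 : |s j + o j ⬝ᵥ g| = 1 / 3 := hs j hj
    rw [abs_mul, h5]
    norm_num
  · have key : ∀ k ≤ n, ∑ j ∈ range k, (3 * (s j + o j ⬝ᵥ g)) • v j
        = (3 / η) • state c v g k k := by
      intro k
      induction k with
      | zero => intro _; simp [state_diag, resp]
      | succ k ih =>
        intro hk
        have e : o k ⬝ᵥ g = -(c / η) * ⟪v k, state c v g k k⟫ := by
          rw [state_diag, inner_sum, dotProduct, mul_sum]
          exact sum_congr rfl fun j _ => by simp only [o, real_inner_smul_right]; ring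
        rw [sum_range_succ, ih (by omega), state_step c v g hk, hgc, damp_apply, e, smul_add,
          smul_sub, smul_smul, smul_smul, sub_add, ← sub_smul, sub_eq_add_neg (_ • _), ← neg_smul]
        congr 2
        field_simp
        ring
    intro k hk
    have h5 := h4 g τ hτ0.le (fun i => by
      have h6 := hgK (Sum.inl i)
      simp only [L', map_smul, smul_eq_mul] at h6
      rwa [inv_mul_le_iff₀ hτ0, mul_one] at h6) k hk
    rw [key k hk, norm_smul, mul_pow, Real.norm_eq_abs, sq_abs]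
    have h7 : (3 / η) ^ 2 = 1500 ^ 2 := by norm_num [hη]
    have hd' : (1 : ℝ) ≤ d := by exact_mod_cast hd
    rw [h7, mul_assoc]
    refine mul_le_mul_of_nonneg_left (h5.trans ?_) (by norm_num)
    have e1 : (d : ℝ) / c = 1 / c * d := by ring
    have e2 : (2 : ℝ) / c = 2 * (1 / c) := by ring
    have e3 : (16 : ℝ) / c = 16 * (1 / c) := by ring
    rw [e1, e2, e3]
    nlinarith

end Crest.Agent.R239
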