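import Crest.Agent.R239.Defs
import Crest.Agent.Lib.PL.PrekopaLeindler

/-!
# Moments of linear functionals under an even log-concave perturbation of the Gaussian
-/

set_option autoImplicit false

namespace Crest.Agent.R239

open Finset MeasureTheory

variable {n : ℕ}

/-- The unnormalised standard Gaussian density. -/
noncomputable def gauss (x : Fin n → ℝ) : ℝ := Real.exp (-(x ⬝ᵥ x) / 2)

theorem gauss_pos (x : Fin n → ℝ) : 0 < gauss x := Real.exp_pos _

theorem continuous_dot (u : Fin n → ℝ) : Continuous fun x : Fin n → ℝ => u ⬝ᵥ x := by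
  unfold dotProduct
  fun_prop

theorem continuous_gauss : Continuous (gauss : (Fin n → ℝ) → ℝ) := by
  unfold gauss dotProduct
  fun_prop

theorem integrable_gauss : Integrable (gauss : (Fin n → ℝ) → ℝ) := by
  have h := Integrable.fintype_prod (ι := Fin n) (μ := fun _ => (volume : Measure ℝ))
    (f := fun _ (t : ℝ) => Real.exp (-(1 / 2) * t ^ 2))
    (fun _ => integrable_exp_neg_mul_sq (by norm_num))
  have e : (gauss : (Fin n → ℝ) → ℝ) = fun x => ∏ i, Real.exp (-(1 / 2) * x i ^ 2) := by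
    funext x
    rw [← Real.exp_sum, gauss]
    congr 1
    rw [← mul_sum, dotProduct]
    simp only [sq]
    ring
  rw [e]
  exact h

/-- Even, continuous, midpoint log-concave weights with values in `[0, 1]`. -/
structure Adm (f : (Fin n → ℝ) → ℝ) : Prop where
  cont : Continuous f
  nonneg : ∀ x, 0 ≤ f x
  le_one : ∀ x, f x ≤ 1
  even : ∀ x, f (-x) = f x
  mid : ∀ x y, f x * f y ≤ f ((1 / 2 : ℝ) • x + (1 / 2 : ℝ) • y) ^ 2

theorem Adm.integrable {f : (Fin n → ℝ) → ℝ} (hf : Adm f) :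
    Integrable fun x => gauss x * f x := by
  refine integrable_gauss.mono' (continuous_gauss.mul hf.cont).aestronglyMeasurable
    (Filter.Eventually.of_forall fun x => ?_)
  rw [Real.norm_of_nonneg (mul_nonneg (gauss_pos x).le (hf.nonneg x))]
  exact mul_le_of_le_one_right (gauss_pos x).le (hf.le_one x)

theorem exponent_le (w x y : Fin n → ℝ) :
    (w ⬝ᵥ x + -(x ⬝ᵥ x) / 2) + (w ⬝ᵥ (-y) + -(y ⬝ᵥ y) / 2) ≤
      2 * (w ⬝ᵥ w / 2 + -(((1 / 2 : ℝ) • x + (1 / 2 : ℝ) • y) ⬝ᵥ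
        ((1 / 2 : ℝ) • x + (1 / 2 : ℝ) • y)) / 2) := by
  have h := dot_self_nonneg (w - (1 / 2 : ℝ) • (x - y))
  simp only [sub_dotProduct, dotProduct_sub, add_dotProduct, dotProduct_add, smul_dotProduct,
    dotProduct_smul, smul_eq_mul, dotProduct_neg] at h ⊢
  rw [dotProduct_comm x w, dotProduct_comm y w, dotProduct_comm y x] at *
  linarith

theorem Adm.exp_moment {f : (Fin n → ℝ) → ℝ} (hf : Adm f) (w : Fin n → ℝ) :
    Integrable (fun x => Real.exp (w ⬝ᵥ x) * (gauss x * f x)) ∧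
      ∫ x, Real.exp (w ⬝ᵥ x) * (gauss x * f x)
        ≤ Real.exp (w ⬝ᵥ w / 2) * ∫ x, gauss x * f x := by
  let f1 : (Fin n → ℝ) → ℝ := fun x => Real.exp (w ⬝ᵥ x) * (gauss x * f x)
  let h : (Fin n → ℝ) → ℝ := fun x => Real.exp (w ⬝ᵥ w / 2) * (gauss x * f x)
  have c1 : Continuous f1 :=
    (Real.continuous_exp.comp (continuous_dot w)).mul (continuous_gauss.mul hf.cont)
  have ch : Continuous h := continuous_const.mul (continuous_gauss.mul hf.cont)
  have n1 : ∀ x, 0 ≤ f1 x := fun x =>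
    mul_nonneg (Real.exp_pos _).le (mul_nonneg (gauss_pos x).le (hf.nonneg x))
  have nh : ∀ x, 0 ≤ h x := fun x =>
    mul_nonneg (Real.exp_pos _).le (mul_nonneg (gauss_pos x).le (hf.nonneg x))
  have ih : Integrable h := hf.integrable.const_mul _
  have key := Crest.Agent.Lib.PL.prekopa_leindler_pi (a := 1 / 2) (b := 1 / 2) (by norm_num)
    (by norm_num) (by norm_num) (f := fun x => ENNReal.ofReal (f1 x))
    (g := fun x => ENNReal.ofReal (f1 (-x))) (h := fun x => ENNReal.ofReal (h x))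
    c1.measurable.ennreal_ofReal (c1.comp continuous_neg).measurable.ennreal_ofReal
    ch.measurable.ennreal_ofReal (by
      intro x y
      rw [← ENNReal.mul_rpow_of_nonneg _ _ (by norm_num), ← ENNReal.ofReal_mul (n1 x),
        ENNReal.ofReal_rpow_of_nonneg (mul_nonneg (n1 x) (n1 _)) (by norm_num)]
      refine ENNReal.ofReal_le_ofReal ?_
      rw [← Real.sqrt_eq_rpow]
      refine Real.sqrt_le_iff.mpr ⟨nh _, ?_⟩
      set z := (1 / 2 : ℝ) • x + (1 / 2 : ℝ) • y with hz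
      have e1 : f1 x * f1 (-y) = Real.exp ((w ⬝ᵥ x + -(x ⬝ᵥ x) / 2)
          + (w ⬝ᵥ (-y) + -(y ⬝ᵥ y) / 2)) * (f x * f y) := by
        simp only [f1, gauss, hf.even, Real.exp_add, neg_dotProduct, dotProduct_neg, neg_neg]
        ring
      have e2 : h z ^ 2 = Real.exp (2 * (w ⬝ᵥ w / 2 + -(z ⬝ᵥ z) / 2)) * f z ^ 2 := by
        simp only [h, gauss, two_mul, Real.exp_add]
        ring
      rw [e1, e2]
      exact mul_le_mul (Real.exp_le_exp.mpr (exponent_le w x y)) (hf.mid x y)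
        (mul_nonneg (hf.nonneg x) (hf.nonneg y)) (Real.exp_pos _).le)
  rw [lintegral_neg_eq_self (fun x => ENNReal.ofReal (f1 x)),
    ← ENNReal.rpow_add_of_nonneg _ _ (by norm_num) (by norm_num),
    show (1 / 2 + 1 / 2 : ℝ) = 1 by norm_num, ENNReal.rpow_one,
    ← ofReal_integral_eq_lintegral_ofReal ih (Filter.Eventually.of_forall nh)] at key
  have i1 : Integrable f1 := ⟨c1.aestronglyMeasurable,
    (hasFiniteIntegral_iff_ofReal (Filter.Eventually.of_forall n1)).mpr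
      (key.trans_lt ENNReal.ofReal_lt_top)⟩
  refine ⟨i1, ?_⟩
  rw [← ofReal_integral_eq_lintegral_ofReal i1 (Filter.Eventually.of_forall n1),
    ENNReal.ofReal_le_ofReal_iff (integral_nonneg nh)] at key
  rwa [integral_const_mul] at key

theorem pow_le_exp_add (y : ℝ) (k : ℕ) (hk : Even k) :
    y ^ k ≤ k.factorial * (Real.exp y + Real.exp (-y)) := by
  have h1 := Real.pow_div_factorial_le_exp |y| (abs_nonneg y) k
  rw [div_le_iff₀ (by positivity), hk.pow_abs] at h1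
  have h2 : Real.exp |y| ≤ Real.exp y + Real.exp (-y) := by
    rcases abs_cases y with h | h <;> rw [h.1] <;> linarith [Real.exp_pos y, Real.exp_pos (-y)]
  calc y ^ k ≤ Real.exp |y| * k.factorial := h1
    _ ≤ (Real.exp y + Real.exp (-y)) * k.factorial := by gcongr
    _ = _ := by ring

theorem exp_half_le : Real.exp (1 / 2) ≤ 2 := by
  have h : Real.exp (1 / 2) ^ 2 = Real.exp 1 := by
    rw [← Real.exp_nat_mul]; norm_num
  have := Real.exp_one_lt_d9
  nlinarith [Real.exp_pos (1 / 2)]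

theorem Adm.moment {f : (Fin n → ℝ) → ℝ} (hf : Adm f) (u : Fin n → ℝ) (k : ℕ) (hk : k ≠ 0) :
    Integrable (fun x => (u ⬝ᵥ x) ^ (2 * k) * (gauss x * f x)) ∧
      ∫ x, (u ⬝ᵥ x) ^ (2 * k) * (gauss x * f x)
        ≤ 4 * (2 * k).factorial * (u ⬝ᵥ u) ^ k * ∫ x, gauss x * f x := by
  have hZ : 0 ≤ ∫ x, gauss x * f x :=
    integral_nonneg fun x => mul_nonneg (gauss_pos x).le (hf.nonneg x)
  by_cases hu : u ⬝ᵥ u = 0
  · have : u = 0 := dotProduct_self_eq_zero.mp hu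
    subst this
    simp [hk]
  have hpos : 0 < u ⬝ᵥ u := lt_of_le_of_ne (dot_self_nonneg u) (Ne.symm hu)
  set r := Real.sqrt (u ⬝ᵥ u) with hr
  have hr0 : 0 < r := Real.sqrt_pos.mpr hpos
  have hr2 : r ^ 2 = u ⬝ᵥ u := Real.sq_sqrt hpos.le
  set w := r⁻¹ • u with hw
  have hww : w ⬝ᵥ w = 1 := by
    rw [hw, smul_dotProduct, dotProduct_smul, ← hr2, smul_eq_mul, smul_eq_mul]
    field_simp
  have huw : ∀ x, u ⬝ᵥ x = r * (w ⬝ᵥ x) := fun x => by
    rw [hw, smul_dotProduct, smul_eq_mul]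
    field_simp
  obtain ⟨i1, b1⟩ := hf.exp_moment w
  obtain ⟨i2, b2⟩ := hf.exp_moment (-w)
  simp only [neg_dotProduct, dotProduct_neg, neg_neg] at i2 b2
  rw [hww] at b1 b2
  let B : (Fin n → ℝ) → ℝ := fun x => ((2 * k).factorial * (u ⬝ᵥ u) ^ k) *
    (Real.exp (w ⬝ᵥ x) * (gauss x * f x) + Real.exp (-(w ⬝ᵥ x)) * (gauss x * f x))
  have iB : Integrable B := (i1.add i2).const_mul _
  have hle : ∀ x, (u ⬝ᵥ x) ^ (2 * k) * (gauss x * f x) ≤ B x := by
    intro x
    have h1 := pow_le_exp_add (w ⬝ᵥ x) (2 * k) (even_two_mul k)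
    have h2 : 0 ≤ gauss x * f x := mul_nonneg (gauss_pos x).le (hf.nonneg x)
    have h3 : 0 ≤ (u ⬝ᵥ u) ^ k := by positivity
    have e : (u ⬝ᵥ x) ^ (2 * k) = (u ⬝ᵥ u) ^ k * (w ⬝ᵥ x) ^ (2 * k) := by
      rw [huw x, mul_pow, pow_mul, hr2]
    rw [e]
    calc (u ⬝ᵥ u) ^ k * (w ⬝ᵥ x) ^ (2 * k) * (gauss x * f x)
        ≤ (u ⬝ᵥ u) ^ k * ((2 * k).factorial * (Real.exp (w ⬝ᵥ x) + Real.exp (-(w ⬝ᵥ x))))
          * (gauss x * f x) := by gcongr
      _ = B x := by simp only [B]; ring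
  have hnn : ∀ x, 0 ≤ (u ⬝ᵥ x) ^ (2 * k) * (gauss x * f x) := fun x =>
    mul_nonneg ((even_two_mul k).pow_nonneg _) (mul_nonneg (gauss_pos x).le (hf.nonneg x))
  have i0 : Integrable (fun x => (u ⬝ᵥ x) ^ (2 * k) * (gauss x * f x)) := by
    refine iB.mono' (((continuous_dot u).pow _).mul
      (continuous_gauss.mul hf.cont)).aestronglyMeasurable
      (Filter.Eventually.of_forall fun x => ?_)
    rw [Real.norm_of_nonneg (hnn x)]
    exact hle x
  refine ⟨i0, (integral_mono i0 iB hle).trans ?_⟩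
  simp only [B]
  rw [integral_const_mul, integral_add i1 i2]
  have h3 : (0 : ℝ) ≤ (2 * k).factorial * (u ⬝ᵥ u) ^ k := by positivity
  have h4 := mul_le_mul_of_nonneg_right exp_half_le hZ
  calc _ ≤ ((2 * k).factorial * (u ⬝ᵥ u) ^ k) * (4 * ∫ x, gauss x * f x) :=
        mul_le_mul_of_nonneg_left (by linarith) h3
    _ = _ := by ring

theorem Adm.moment_two {f : (Fin n → ℝ) → ℝ} (hf : Adm f) (u : Fin n → ℝ) :
    Integrable (fun x => (u ⬝ᵥ x) ^ 2 * (gauss x * f x)) ∧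
      ∫ x, (u ⬝ᵥ x) ^ 2 * (gauss x * f x) ≤ 8 * (u ⬝ᵥ u) * ∫ x, gauss x * f x := by
  have := hf.moment u 1 one_ne_zero
  norm_num [Nat.factorial] at this
  exact this

theorem Adm.moment_four {f : (Fin n → ℝ) → ℝ} (hf : Adm f) (u : Fin n → ℝ) :
    Integrable (fun x => (u ⬝ᵥ x) ^ 4 * (gauss x * f x)) ∧
      ∫ x, (u ⬝ᵥ x) ^ 4 * (gauss x * f x) ≤ 96 * (u ⬝ᵥ u) ^ 2 * ∫ x, gauss x * f x := by
  have := hf.moment u 2 two_ne_zero
  norm_num [Nat.factorial] at this
  exact this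

end Crest.Agent.R239
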